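import Crest.Agent.X212.Nm96.Pd

/-!
# Row 212, `p = 1` (helper48): terminal states of the walk are terminal chains
-/

set_option autoImplicit false
noncomputable section

namespace Crest.Agent.X212.Two48.Tr1

open Crest.Agent.X212.Rod53 Crest.Agent.X212.Wd38 Crest.Agent.X212.Nm96 Crest.Agent.X212.Tm38 Finset Cn

variable {Γ : Nm} {P : Pm Γ} {T : WTh Γ} {F F₁ : Fm Γ} {w w' : Shp Γ} {n n' n₁ : Wt} {x y z b s t : ℤ} {κ : Γ.ι}
  {σ : Finset Bs} {v v' : ℝ × ℝ} {Q : ℤ} {K K₁ d d₁ : ℕ} {g g₁ u u₁ : ℕ → ℤ} {c c₁ : Cn} {X : Fx Γ}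
  {q i tL tR : ℕ}

theorem rd_dt {r : Z2} {μ : ℤ} (h : Rd w n κ r μ x y) : ∀ c, x < c → c ≤ y → dt (w.lf c) (w.rt c) = 0 :=
  fun c p q => by
    rw [Shp.lf, Shp.rt, (h c p.le q).1, (h (c - 1) (by omega) (by omega)).1]; exact Wd38.dt_self _

/-- a window without vertices and walls -/
theorem win0 (H : Cw F x y z) (yz : y ≤ z) (h : ∀ c, x < c → c ≤ y → dt (F.w.lf c) (F.w.rt c) = 0)
    (e : wn x y σ = ∅) (le : v' ≤ v) : F.Win z 0 n σ x y v v' := win_of H.ls fun B hB _ => by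
  obtain rfl : B = ∅ := subset_empty.1 (e ▸ hB)
  refine ⟨0, by simp, fun η => pd_0 (m := 0) H yz (fun c p q => .inl (h c p q)) (Nat.cast_nonneg _) ?_ ?_⟩
  · rw [S_zero vn_al fun c p q _ _ => h c p q]; linarith [le.1]
  · rw [S_zero vn_psi fun c p q _ _ => h c p q]; linarith [le.2]

theorem S_om (h : Df w x y) : S w n om x y = S w n al x y := sum_congr rfl fun c hc => by
  have k := (mem_filter.1 hc).2
  have : lp (w.lf c) (w.rt c) (n.nr (c - 1)) (n.nl c) = 0 := by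
    rw [Nm96.lp]; split_ifs with e
    · rfl
    · rw [Int.sign_eq_neg_one_of_neg ((h c k.1 k.2).resolve_left e)]; norm_num
  simp only [Nm96.vx, om, al, this, mul_zero]

theorem cnt_cut (h : x ≤ y) : cnt g K x = #{i ∈ range K | x < g i ∧ g i ≤ y} + cnt g K y := by
  simp only [cnt, card_filter, ← sum_add_distrib]
  exact sum_congr rfl fun i _ => by split_ifs <;> omega

section head
variable (A : Tr P T κ X q i tL tR Q F₁ n₁ u₁ K₁ g₁ d₁ c₁)
include A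

theorem sb : u₁ (q + 2) + 8 < X.b := by
  have := A.gap (q + 2); have := A.hi; have := A.i1
  have := A.pt.mono.monotone (show q + 2 + 1 ≤ q + i + 2 by omega)
  omega

theorem hs : u₁ 1 + 8 ≤ u₁ 2 ∧ u₁ 2 + 8 ≤ u₁ 3 ∧ u₁ 3 ≤ u₁ (q + 2) ∧ F₁.w.l < u₁ 1 ∧ X.b < F₁.w.r :=
  ⟨A.gap 1, A.gap 2, A.pt.mono.monotone (by have := A.i1; omega), A.pt.lo.trans (A.pt.lt 0),
    (cut_lt A.st.fr.ok A.st.am.cb).2⟩

theorem S1 : S F₁.w n₁ al (u₁ 1 + 4) (u₁ 2 + 1) =
    al (VT q i 1) (VT q i 2) (mu q i tL tR 1) (mu q i tL tR 2) := by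
  have := hs A
  rw [A.pt.S (k0 := 1) (k1 := 2) vn_al (by omega) (by omega) (by simp only [Nat.reduceAdd]; omega) (by omega)
    (by simp only [Nat.reduceAdd]; omega), show Ioc 1 2 = {2} from rfl, sum_singleton]

theorem S2 : ∃ U : ℤ, S F₁.w n₁ al (u₁ 2 + 1) (u₁ (q + 2) + 4) = U / 2 := by
  have := hs A; have := A.i1; have := A.gap (q + 2)
  obtain ⟨a1, a2, -⟩ := (ht_mu A.i1.2.2.1 A.i1.2.2.2).S (k0 := 2) (k1 := q + 2) (x := u₁ 2 + 1)
    (y := u₁ (q + 2) + 4) A.pt (by omega) (by omega) (by omega) (by omega) (by simp only [Nat.reduceAdd]; omega)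
    (by omega) (by omega)
  exact ⟨_, by rw [S_al, a1, a2, mul_zero, zero_add]⟩

end head

open Classical in
/-- the reference data -/
def rf (X : Fx Γ) (q : ℕ) (F : Fm Γ) (n : Wt) (u : ℕ → ℤ) (C : ℤ) : Ref Γ :=
  ⟨F.w, n, {a ∈ X.A | a.OK F.w ∧ X.b < a.lo}, u 1 + 4, u 2 + 1, u (q + 2) + 4, X.b, C, (0, 2), vT 0⟩

theorem rf_ok (A : Tr P T κ X q i tL tR Q F n u K g d c) (C : ℤ) : (rf X q F n u C).OK P := by
  classical
  have := hs A; have := sb A; have := A.i1; have := A.gap (q + 2)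
  have pt := A.pt
  have := pt.lt 0
  have := pt.mono.monotone (show 3 ≤ q + i + 2 + 1 by omega)
  refine ⟨A.st.fr.ok.w, A.st.fr.lok.ok, A.st.fr.lok.mL, A.st.fr.lok.mR,
    pt.rg (by simp only [rf, zero_add] at *; omega) (by simp only [rf]; omega) (by simp only [rf]; omega),
    ⟨by simp only [rf]; omega, by simp only [rf]; omega, by simp only [rf]; omega, by simp only [rf]; omega⟩,
    ⟨congrArg (·.r.2.2) (pt.s (k := 1) (j := u 1 + 4) (by omega) (by omega) (by simp only [Nat.reduceAdd]; omega)),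
      ?_⟩, congrArg (|·.r.2.2|) (pt.s (k := 2) (j := u 2 + 1) (by omega) (by omega)
        (by simp only [Nat.reduceAdd]; omega)), ?_,
    ⟨_, pt.s (k := q + 2) (j := u (q + 2) + 4 + 1) (by omega) (by omega) (by omega)⟩, A.st.am.cb.2,
    fun a k => (mem_filter.1 k).2⟩
  · show Odd (n.nr (u 1 + 4))
    rw [pt.nr (k := 1) (by omega) (by omega) (by simp only [Nat.reduceAdd]; omega), mu, if_neg (by omega), if_pos rfl]
    exact odd_one
  · show (F.w.s (u (q + 2) + 4)).r.2.1 = 0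
    rw [pt.s (k := q + 2) (by omega) (by omega) (by omega), VT, if_neg (by omega), if_neg (by omega)]
    show (q : ℤ) + 2 - (q + 2 : ℕ) = 0
    omega

theorem cpy (A : Tr P T κ X q i tL tR Q F₁ n₁ u₁ K₁ g₁ d₁ c₁) (B : Tr P T κ X q i tL tR Q F n u K g d c)
    (O₁ : Off q u₁) (O : Off q u) : Cpy F₁.w F.w n₁ n (u 1 - u₁ 1) (u₁ 1 + 4) (u₁ (q + 2) + 4) := fun j j1 j2 => by
  have h := A.pt
  have := h.lt 0; have := A.gap (q + 2); have := B.gap (q + 2); have := A.i1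
  have i1 := ix_le h.mono (show u₁ 0 ≤ j by simp only [zero_add] at *; omega)
  have i2 := lt_ix h.mono j
  have i3 : 1 < ix u₁ j + 1 := h.mono.lt_iff_lt.1 (by omega)
  have i4 : ix u₁ j < q + 2 + 1 := h.mono.lt_iff_lt.1 (by omega)
  generalize ix u₁ j = k at *
  have e1 := O k (by omega) (by omega)
  have e2 := O₁ k (by omega) (by omega)
  obtain ⟨a1, a2, a3⟩ := h.rd k (by omega) j i1 (by omega)
  obtain ⟨b1, b2, b3⟩ := B.pt.rd k (by omega) (j + (u 1 - u₁ 1)) (by omega) (by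
    by_cases e : k = q + 2
    · subst e; omega
    · have := O (k + 1) (by omega) (by omega); have := O₁ (k + 1) (by omega) (by omega); omega)
  exact ⟨b1.trans a1.symm, b2.trans a2.symm, fun _ => b3.trans a3.symm⟩

/-- growth at level zero -/
theorem ns0 {Y : Ref Γ} {D : TD} (ls : F.ls = ∅) (hx : Y.h + D.d = x) (hb : Y.b + D.e = b) (hu : Y.u.2 = 2)
    (ht : ∀ i, D.t (i + 1) = g i) (xy : x ≤ y) (yb : y ≤ b)
    (d0 : ∀ c, x < c → c ≤ y → dt (F.w.lf c) (F.w.rt c) = 0) (df : Df F.w y b) (hq : -2 ≤ Q ∧ Q ≤ 5)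
    (hg : ∀ i < K, y < g i ∧ g i ≤ b) (sl : ∀ a ∈ wn x b σ, ¬a.arc ∧ y < a.lo) (M : Md F.w n σ y b Q K g) :
    D.Ns0 Y K F n σ := by
  have df' : Df F.w x b := Df.trans (fun c p q => .inl (d0 c p q)) df
  have e0 : wn x y σ = ∅ := eq_empty_of_forall_notMem fun a k => by
    have k := mem_wn.1 k; have := sl a (mem_wn.2 ⟨k.1, k.2.1, by omega⟩); omega
  have p0 : pot F.w n σ b x = Q - 5 := by
    rw [pot_cut xy yb, e0, S_zero vn_al fun c p q _ _ => d0 c p q, M.p]; simp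
  have k0 : #(wn x b σ) = K := by rw [wn_cut xy yb, e0, M.k]; simp
  have q1 : (-2 : ℝ) ≤ Q := by exact_mod_cast hq.1
  have q2 : (Q : ℝ) ≤ 5 := by exact_mod_cast hq.2
  have key : ∀ s, x ≤ s → s ≤ b → s = x ∨ s = b ∨ .sS s ∈ σ →
      -7 ≤ pot F.w n σ b s ∧ pot F.w n σ b s ≤ 5 ∧ #(wn s b σ) = cnt g K s := fun s s1 s2 k => by
    rcases k with rfl | rfl | k
    · rw [p0, k0, cnt, filter_true_of_mem fun i k => xy.trans_lt (hg i (mem_range.1 k)).1, card_range]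
      exact ⟨by linarith, by linarith, rfl⟩
    · have : wn s s σ = ∅ := eq_empty_of_forall_notMem fun a k => by have := mem_wn.1 k; omega
      rw [pot, S_self, this, cnt, filter_false_of_mem fun i k => (hg i (mem_range.1 k)).2.not_gt]
      norm_num
    · refine M.s s ?_ s2 k
      rcases s2.eq_or_lt with e | e
      exacts [e ▸ yb, (sl _ (mem_wn.2 ⟨k, s1, e⟩)).2.le]
  refine ⟨ls, ?_, ?_, ?_, fun s t st hs s1 ht' t1 => ?_⟩ <;> simp only [TD.Φ, hx, hb, hu, ht] at *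
  · exact fun a k => ⟨(sl a k).1, xy.trans_lt (sl a k).2⟩
  · exact df'
  · rw [pot, k0] at p0
    rw [S_om df', k0]
    linarith [K.cast_nonneg (α := ℝ)]
  · obtain ⟨-, a2, a3⟩ := key s s1 (by omega) (hs.imp_right .inr)
    obtain ⟨b1, -, b3⟩ := key t (by omega) t1 (.inr ht')
    have e := wn_cut (σ := σ) st.le t1
    rw [a3, b3, cnt_cut st.le, add_left_inj] at e
    rw [pot_cut st.le t1] at a2
    rw [S_cut s1 st.le, wn_cut s1 st.le, S_om (x := s) (df'.mono s1 t1), e]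
    push_cast
    linarith [(#(wn s t σ)).cast_nonneg (α := ℝ)]

theorem td_ok (A : Tr P T κ X q i tL tR Q F₁ n₁ u₁ K₁ g₁ d₁ c₁) (B : Tr P T κ X q i tL tR Q F n u K g d c)
    (O₁ : Off q u₁) (O : Off q u) {U C : ℤ} (hU : S F₁.w n₁ al (u₁ 2 + 1) (u₁ (q + 2) + 4) = U / 2)
    (h1 : Q - 6 - 2 * U < 4 * C) (h2 : 4 * C < Q - 1 - 2 * U) :
    TD.OK P (rf X q F₁ n₁ u₁ C) K F ⟨u 1 - u₁ 1, 0, n, gs (u 2 + 1) g⟩ c := by
  classical
  have hA := hs A; have hB := hs B; have := sb A; have := sb B; have := A.i1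
  have H := B.st.fr
  have M := B.st.am
  have ea : (rf X q F₁ n₁ u₁ C).a + (u 1 - u₁ 1) = u 1 + 4 := by simp only [rf]; omega
  have eh : (rf X q F₁ n₁ u₁ C).h + (u 1 - u₁ 1) = u 2 + 1 := by
    have := O 2 (by omega) (by omega); have := O₁ 2 (by omega) (by omega); simp only [rf]; omega
  have es : (rf X q F₁ n₁ u₁ C).s + (u 1 - u₁ 1) = u (q + 2) + 4 := by
    have := O (q + 2) (by omega) le_rfl; have := O₁ (q + 2) (by omega) le_rfl; simp only [rf]; omega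
  have eb : (rf X q F₁ n₁ u₁ C).b + 0 = X.b := add_zero _
  have aq := A.st.am.aq.symm.trans M.aq
  have er : F.w.r = F₁.w.r := M.r.trans A.st.am.r.symm
  have wl : ∀ a ∈ c.walls, a.b.pin ∧ a.b.OK F.w ∧ Ps (u 2 + 1) (u 3 - 2) X.b a := fun a k => by
    obtain ⟨p, hp, k⟩ := mem_walls.1 k
    exact (B.st.cc.cell p hp).2.ok a k
  have sd : ∀ a ∈ c.walls, a.b.lo ≤ a.b.hi ∧ (a.b.hi < u 1 + 4 ∨ u 2 + 1 < a.b.lo) := fun a k => by
    refine ⟨(wf_of_ok (wl a k).2.1).1.1, ?_⟩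
    rcases B.side _ (mem_union_left _ (mem_image_of_mem _ k)) with e | e | e
    · exact ((e ▸ (wl a k).1 :) : False).elim
    · exact ((e ▸ (wl a k).1 :) : False).elim
    · exact e
  have d0 := rd_dt B.st.rd
  have cw := H.cw B.st.cx B.st.cy H.xy le_rfl
  refine ⟨H.ok, H.lok, ⟨ea ▸ B.fa, eh ▸ B.st.cx.1, eb ▸ M.cb.1⟩, by rw [es, eb]; omega, er.trans (add_zero _).symm,
    cpy A B O₁ O, fun j a _ => ?_, fun a k => ?_, ea ▸ eh ▸ B.side, fun a k p => ?_, by simp [H.ls],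
    fun p hp => (B.st.cc.cell p hp).1 ▸ .refl, ?_, .inl (es ▸ B.s), eh.symm, ?_, fun j hj => ⟨?_, (M.g1 j hj).2.2⟩,
    fun p hp => ?_⟩
  · obtain ⟨a1, a2, a3⟩ := aq j a
    simpa only [add_zero] using ⟨a1, a2, fun _ => a3⟩
  · rw [eh, eb]
    rcases (wl a k).2.2 with p | p | p
    exacts [.inl p.1, .inr ⟨by omega, p.2.1.le, fun τ j => by have := p.2.2.2 τ j; omega⟩, .inl p.1]
  · rw [eb] at p
    rw [show a.sh (-0) = a by cases a <;> simp [Bs.sh]]
    have o : a ∈ X.A ∧ a.OK F.w := by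
      rcases mem_union.1 k with k | k
      · obtain ⟨f, j, rfl⟩ := mem_image.1 k
        exact ⟨M.twc f j p, (wl f j).2.1⟩
      · exact ⟨M.twf a k p, (H.ok.fz a k).1⟩
    exact mem_filter.2 ⟨o.1, ok_loc o.2 (by omega) er.le fun j a _ => (aq j (by simp only; omega)).1.symm, p⟩
  · rw [ea]
    exact B.st.cc.exc.congr (y := u 1 + 4) fun p hp a k => by have := sd a (mem_walls.2 ⟨p, hp, k⟩); omega
  · rw [eb]
    cases K with
    | zero => show u 2 + 1 ≤ _; omega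
    | succ k => exact (M.g1 k k.lt_succ_self).2.1
  · cases j with
    | zero => have := (M.g1 0 hj).1; show u 2 + 1 < g 0; omega
    | succ j => exact M.g2 j hj
  obtain ⟨e, G⟩ := B.st.cc.cell p hp
  obtain ⟨ts, k1, k2, k3, k4, k5⟩ := G.wr
  have ps := fun a => G.pos H.yb (a := a)
  have bz := H.bz
  have zr := cut_lt H.ok H.cz
  have e1 : Aq F.w F.w n (acts F.w ts n) (· ≤ u 3 - 2) := acts_ag _ fun τ q j i => .inl (by have := k1 τ q; omega)
  have e0 : wn (u 2 + 1) (u 3 - 2) (p.2.image Wl.b) = ∅ := eq_empty_of_forall_notMem fun a k => by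
    have k := mem_wn.1 k; have := ps _ k.1; omega
  have W : ∀ v, vQ Q ≤ v → F.Win X.z 0 (acts F.w ts n) (p.2.image Wl.b) (u 2 + 1) (F.w.r + 1) v (vR P) := fun v le =>
    (win0 cw (by omega) d0 e0 le).trans k4 (by omega) (by omega) (by omega) (by omega)
      (fun a k => by have k := mem_wn.1 k; have := ps _ k.1; exact ⟨by omega, by omega⟩) (by simp [H.ls, wn])
  have ok := forall_mem_image.2 fun a k => (G.ok a k).2.1
  have hd : ∀ x, F₁.w.l ≤ x → (rf X q F₁ n₁ u₁ C).hd al x = S F₁.w n₁ al x (u₁ (q + 2) + 4) := fun x k =>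
    (S_eq (w := F₁.w) (y := u₁ (q + 2) + 4) k (by omega)).symm
  have c1 : (Q : ℝ) - 6 - 2 * U < 4 * C := by exact_mod_cast h1
  have c2 : (4 * C : ℝ) < Q - 1 - 2 * U := by exact_mod_cast h2
  rw [e]
  refine ⟨ts, k2, k3, fun τ q => by rw [eh, eb]; have := k1 τ q; omega,
    ⟨forall_mem_image.2 fun a k => ⟨(G.ok a k).2.1, okn_of_pin (G.ok a k).1⟩, G.far, forall_mem_image.2 G.fz,
      by simp [H.ls], ?_⟩, ?_, ⟨X.z, vQ Q, H.cz, eh ▸ W _ le_rfl, ?_⟩, .inr ?_, X.z, H.cz, eb ▸ bz, ?_⟩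
  · obtain ⟨v, Wl⟩ := G.wl
    exact ((Wl.aq H.ls H.ls rfl rfl e1 (fun _ _ q => by omega) Subset.rfl (fun _ _ _ => Iff.rfl)
      fun a k _ q => by have := ps a k; omega).trans (W _ ⟨by simp only [vQ]; linarith, by simp only [vQ]; norm_num⟩)
      (by omega) (by omega) (by omega) (by omega) (fun a k => by
        have := ps _ (mem_wn.1 k).1; exact ⟨by omega, by omega⟩) (by simp [H.ls, wn])).numC le_rfl zero_le_one ok
      G.far (by simp [H.ls]) (.inr H.cz) zr.2.le le_rfl le_rfl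
  · obtain ⟨v, v', Wl, k⟩ := B.nl p hp
    refine ⟨X.z, v, v', ea ▸ Wl.aq H.ls H.ls rfl rfl e1 (fun _ _ q => by omega) Subset.rfl (fun _ _ _ => Iff.rfl)
      fun a k _ q => ?_, ?_⟩
    · obtain ⟨a, j, rfl⟩ := mem_image.1 k
      have := sd a (mem_walls.2 ⟨p, hp, j⟩); omega
    · show 7 / 4 - (C : ℝ) - Ref.hd _ al (u₁ 1 + 4) < _
      rw [hd _ (by omega), S_cut (y := u₁ 2 + 1) (by omega) (by omega), hU, S1 A, ← S1 B]
      linarith
  · show (9 - (Q : ℝ)) / 4 < 2 - (C : ℝ) - Ref.hd _ al (u₁ 2 + 1)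
    rw [hd _ (by omega), hU]
    linarith
  · refine ns0 H.ls eh eb rfl (fun _ => rfl) H.xy.le H.yb d0 M.df B.st.q (fun j k => ⟨(M.g1 j k).1, (M.g1 j k).2.1⟩)
      (fun a k => ?_) k5
    obtain ⟨k, a1, a2⟩ := mem_wn.1 k
    have := ps a k
    obtain ⟨a, j, rfl⟩ := mem_image.1 k
    rcases (G.ok a j).2.2 with p | p | p
    exacts [by omega, ⟨p.2.2.1, p.1⟩, by omega]
  · rw [eb]
    exact G.tl.aq (p := (X.b ≤ ·)) H.ls H.ls rfl rfl (acts_ag _ fun τ q j i => .inr (by have := k1 τ q; omega))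
      (fun _ q _ => q) Subset.rfl (fun _ _ _ => Iff.rfl) fun a k _ _ => by have := ps a k; omega

/-- **TERMINAL** for `p = 1` -/
theorem trStmt : TrStmt := fun P T κ X q i tL tR Q Fw => by
  by_cases h : ∃ F n u K g d c, Off q u ∧ Tr P T κ X q i tL tR Q F n u K g d c
  swap
  · exact ⟨0, fun F n u K g d c _ O B => h ⟨F, n, u, K, g, d, c, O, B⟩⟩
  obtain ⟨F₁, n₁, u₁, K₁, g₁, d₁, c₁, O₁, A⟩ := h
  obtain ⟨U, hU⟩ := S2 A
  obtain ⟨N, hN⟩ := Fw _ (rf_ok A ((Q - 2 * U - 2) / 4))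
  refine ⟨N, fun F n u K g d c le O B => B.st.ne (hN K le F d c _ (td_ok A B O₁ O hU (by omega) (by omega))
    (B.st.cc.cl B.st.fr ⟨[], inn_empty, by simp, fun σ e => ?_⟩))⟩
  have H := B.st.fr
  exact win0 (H.cw B.st.cx B.st.cy H.xy le_rfl) (H.yb.trans H.bz) (rd_dt B.st.rd) (by simpa using e)
    ⟨by simp only [vQ]; linarith, by simp only [vQ]; norm_num⟩

end Crest.Agent.X212.Two48.Tr1
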