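import Crest.Agent.X212.Two48.En
import Crest.Agent.X212.Tm38.W

/-!
# Row 212, layer G (helper48): the terminal chains of the case `p = 2`
-/

set_option autoImplicit false
set_option linter.unusedSimpArgs false
noncomputable section

namespace Crest.Agent.X212.Two48

open Crest.Agent.X212.Rod53 Crest.Agent.X212.Wd38 Crest.Agent.X212.Nm96 Crest.Agent.X212.Tm38 Finset Cn Relation

variable {Γ : Nm} {P : Pm Γ} {F G : Fm Γ} {a : Bs} {n n' n₀ : Wt} {c : Cn} {g : Wt → Wt} {d : ℕ}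
  {b s t x y z τ : ℤ} {A β σ : Finset Bs} {v : ℝ × ℝ} {w w' w₀ : Shp Γ} {κ : Γ.ι} {p : Wt × Finset Wl}

theorem To.sp (h : To F n σ) (hy : .yS y ∈ F.fz) (ha : a ∈ σ) : Sp y a := by
  have := h.fz a ha _ hy
  simp only [Bs.Far, show ¬(Bs.yS y).arc from id, false_and, and_false, or_false] at this
  exact ⟨(wf_of_ok (h.ok a ha).1).1.1, this⟩

theorem Xt.sm (X : Xt P F G y c g) (hs : y ≤ s) (n : Wt) : Fm.Sm F G n (g n) s t :=
  ⟨X.l, X.r, fun j a _ => (X.aq n j (hs.trans a)).1, fun j a _ => (X.aq n j (hs.trans a)).2.1,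
    fun j a _ => (X.aq n j (hs.trans a)).2.2, Finset.ext fun l => by
      simp only [mem_wn]
      exact and_congr_left fun q => ⟨fun k => (X.ls' l k).resolve_right fun r => by
        have := ls_bd X.ok k; omega, fun k => X.ls k⟩, fun _ _ _ k => X.fz k⟩

theorem Xt.cut (X : Xt P F G y c g) (hs : y ≤ s) (h : F.Cut s) : G.Cut s :=
  ⟨X.fz h.1, (X.aq Wt.o s hs).1 ▸ h.2⟩

theorem sm_nf (m : Fm.Sm F G n n' s t) : Fm.Sm (nf F) (nf G) n n' s t :=
  ⟨m.l, m.r, m.s', m.nl, m.nr, m.ls, fun _ _ _ => id⟩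

theorem wn_un (h : ∀ a ∈ β, a.lo < s) : wn s t (β ∪ σ) = wn s t σ := Finset.ext fun a => by
  simp only [mem_wn, mem_union]
  exact and_congr_left fun q => or_iff_right fun r => by have := h a r; omega

variable (P) in
/-- the windows of the letters and of the tail -/
structure Cv (b y : ℤ) (F : Fm Γ) (n : Wt) (σ : Finset Bs) : Prop where
  lt : ∀ s, y ≤ s → s + 9 ≤ b → (b - s) % 9 = 0 → ∀ q : ℝ, 3 / 4 ≤ q → q ≤ 9 / 4 →
    (nf F).Win b 0 n σ s (s + 9) (q, 0) (q + 1 / 4, 1)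
  tl : ∃ z, F.Cut z ∧ b ≤ z ∧ F.Win z 0 n σ b (F.w.r + 1) (5 / 2, 1) (vR P)

theorem Cv.tr (h : Cv P b y F n σ) (X : Xt P F G y c g) (T : To F n σ) (le : y ≤ b)
    (cut : ∀ s, y ≤ s → s ≤ b → (b - s) % 9 = 0 → F.Cut s) (hβ : ∀ a ∈ β, a.lo < y) :
    Cv P b y G (g n) (β ∪ σ) := by
  obtain ⟨z, z1, z2, W⟩ := h.tl
  refine ⟨fun s s1 s2 s3 q q1 q2 => (h.lt s s1 s2 s3 q q1 q2).congr (sm_nf (X.sm s1 n))
    (wn_un fun a k => (hβ a k).trans_le s1) fun a k => ?_, z, X.cut (le.trans z2) z1, z2,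
    X.r ▸ W.congr (X.sm le n) (wn_un fun a k => (hβ a k).trans_le le) fun a k => ?_⟩ <;>
    obtain ⟨k1, k2, k3⟩ := mem_wn.1 k
  · have := T.sp (cut (s + 9) (by omega) s2 (by omega)).1 k1
    unfold Sp at this; omega
  · have := wf_of_ok (T.ok a k1).1; have := this.1.1; omega

theorem Cv.four (h : Cv P b y F n σ) (ok : F.OK P) (T : To F n σ)
    (cut : ∀ s, y ≤ s → s ≤ b → (b - s) % 9 = 0 → F.Cut s) (s1 : y ≤ s) (s2 : s + 36 ≤ b) (s3 : (b - s) % 9 = 0) :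
    (nf F).Win b 0 n σ s (s + 36) (3 / 2, 0) (5 / 2, 1) := by
  have key : ∀ k : ℕ, k ≤ 3 →
      (nf F).Win b 0 n σ s (s + 9 * k + 9) (3 / 2, 0) (3 / 2 + k / 4 + 1 / 4, 1) := fun k hk => by
    induction k with
    | zero => simpa using h.lt s s1 (by omega) s3 (3 / 2) (by norm_num) (by norm_num)
    | succ k ih =>
      have C := cut (s + 9 * k + 9) (by omega) (by omega) (by omega)
      have : (k : ℝ) ≤ 2 := by exact_mod_cast (by omega : k ≤ 2)
      have : (0 : ℝ) ≤ k := k.cast_nonneg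
      have W := (ih (by omega)).trans ((h.lt _ (by omega) (by omega) (by omega) (3 / 2 + k / 4 + 1 / 4)
        (by linarith) (by linarith)).mono ⟨le_rfl, zero_le_one⟩ le_rfl) (by omega) (by omega) (by omega)
        (cut_lt ok C).2.le (fun a k => T.sp C.1 (mem_wn.1 k).1) fun l k => sp_ls ok C.1 (mem_wn.1 k).1
      convert W using 2 <;> push_cast <;> ring
  convert key 3 le_rfl using 1 <;> norm_num [add_assoc]

/-- the window between `h` and the first letter -/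
theorem Lt.pre (h : Lt κ F n τ x y) (hx : x + 18 ≤ y) (hz : y - 9 ≤ z) (hσ : ∀ a ∈ σ, y - 9 < a.lo) :
    (nf F).Win z 0 n σ (x + 7) (y - 9) v v := by
  intro B k _
  obtain rfl : B = ∅ := eq_empty_of_forall_notMem fun a q => by
    have := mem_wn.1 (k q); have := hσ a this.1; omega
  have := h.hi
  refine ⟨fun _ _ => 0, by simp, by simp, fun η => pc_of (F := nf F) (N := 4) (k₀ := 3) (L := ∅) (U := ∅)
    ⟨h.pt.mono, h.pt.lo, by show y - 7 ≤ F.w.r; omega, fun k hk => h.pt.rd k (by omega)⟩ (fun _ => 0)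
    (fun _ => 0) (le_refl (x + 7)) (by simp only [tL]; omega) (by omega) (by simp only [tL]; omega) (by omega)
    (by show _ ≤ F.w.r; omega) (fun c a b => by simp only [tL] at a; omega) (by simp)
    (eq_empty_of_forall_notMem fun l q => ?_) (empty_subset _) hz ?_⟩
  · have q := mem_wn.1 q
    rcases h.ls l q.1 with rfl | r
    · simp only [wl, Bs.lo] at q; omega
    · omega
  simp only [sx, ex, dp, sum_Ioc_succ_top (le_refl 3), Ioc_self, sum_empty, InV, notMem_empty, false_imp_iff,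
    implies_true, if_true]
  refine ⟨by nu_ev, fun p _ => ?_⟩
  have := sq_nonneg (2 * (p 3 : ℝ) - p 4)
  nu_ev
  linarith

/-- the window left of a frozen `Y₀` without walls -/
theorem win_nl (h : F.Y0 n y) (hl : F.w.l ≤ y) (hσ : ∀ a ∈ σ, y ≤ a.lo) (z : ℤ) (v' : ℝ × ℝ) :
    ∃ v, F.Win z 0 n σ (F.w.l - 1) y v v' := by
  obtain ⟨K, hK⟩ := ev_bdd (F := F) (n := n) (σ := σ) (B := ∅) (ch := fun _ _ => 0) (φ := al) (μ := 1 / 4)
    (e := (13 - 0) / 4) (s := F.w.l - 1) (t := y)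
  refine ⟨(v'.1 - K, 0), fun B k _ => ?_⟩
  obtain rfl : B = ∅ := eq_empty_of_forall_notMem fun a q => by
    have := mem_wn.1 (k q); have := hσ a this.1; omega
  exact ⟨fun _ _ => 0, by simp, by simp, fun η => ⟨by simpa [dp, InV] using hK η,
    .inl ⟨y, by omega, le_rfl, h.1, h.2.1, h.2.2, by simp [InV]⟩⟩⟩

theorem ok_tr (h : a.OK w) (l : w'.l ≤ a.lo) (r : w'.r = w.r) (e : ∀ j, a.lo ≤ j → w'.s j = w.s j) : a.OK w' := by
  have R : ∀ {x y}, w.Rg x y → w'.l ≤ x → (∀ j, x ≤ j → w'.s j = w.s j) → w'.Rg x y := fun k l e =>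
    ⟨l, k.lt, r ▸ k.hi, fun j p q => e j p.le ▸ k.fr j p q⟩
  cases a <;> simp only [Bs.OK, Bs.lo] at *
  · exact ⟨R h.1 l e, by rw [e _ le_rfl, e _ h.1.lt.le]; exact h.2⟩
  · exact ⟨R h.1 l e, by rw [e _ le_rfl, e _ h.1.lt.le]; exact h.2⟩
  · exact ⟨R h.1 l e, by rw [e _ le_rfl, e _ h.1.lt.le]; exact h.2⟩
  · exact ⟨l, by rw [r, e _ le_rfl]; exact h.2⟩
  · exact ⟨l, r ▸ h.2⟩

theorem cpy_pt {T T' : ℕ → ℤ} {V : ℕ → Z2} {m : ℕ → ℤ} {N : ℕ} {e : ℤ} (h : Pt w n κ T V m N)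
    (h' : Pt w' n' κ T' V m N) (he : ∀ k, T' k = T k + e) (ha : T 0 ≤ s) (hb : t < T (N + 1)) :
    Cpy w w' n n' e s t := fun j j1 j2 => by
  have i1 := ix_le h.mono (ha.trans j1)
  have i2 := lt_ix h.mono j
  have i3 := (h.rod (ha.trans j1) (j2.trans_lt hb)).1
  obtain ⟨a1, a2, a3⟩ := h.rd _ i3 j i1 (by omega)
  obtain ⟨b1, b2, b3⟩ := h'.rd _ i3 (j + e) (by rw [he]; omega) (by rw [he]; omega)
  exact ⟨b1.trans a1.symm, b2.trans a2.symm, fun _ => b3.trans a3.symm⟩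

theorem tL_sh (e : ℤ) (k : ℕ) : tL (x + e) (y + e) k = tL x y k + e :=
  match k with
  | 0 | 1 | 2 | 3 | 4 | 5 | 6 => by simp only [tL]; omega
  | k + 7 => by simp only [tL]; omega

variable (D : Dt Γ P.Λ) in
/-- the invariant of the walk -/
structure Iv (b : ℤ) (w₀ : Shp Γ) (n₀ : Wt) (A : Finset Bs) (F : Fm Γ) (x y : ℤ) (c : Cn) (n : Wt) : Prop where
  lok : F.LOK P n
  gap : D.Gap F.w n x y
  orb : ∀ p ∈ c.support, ReflTransGen (Fl F.ls) n p.1
  le : y ≤ b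
  md : (b - y) % 9 = 0
  r : F.w.r = w₀.r
  aq : Aq w₀ F.w n₀ n (b ≤ ·)
  cut : ∀ s, y ≤ s → s ≤ b → (b - s) % 9 = 0 → F.Cut s
  ls : ∀ l ∈ F.ls, l.hi < b
  tw : ∀ a ∈ c.walls.image Wl.b ∪ F.fz, b < a.lo → a ∈ A
  cv : ∀ p ∈ c.support, Cv P b y F p.1 (p.2.image Wl.b)

variable {D : Dt Γ P.Λ}

theorem Iv.nx (I : Iv D b w₀ n₀ A F x y c n) (S : St D F x y d c) (h : x + 17 ≤ y) (hk : P.kL = D.k) :
    Iv D b w₀ n₀ A (fNx D F x y) (x + 8) (y - 9) (cNx x y c) (insW 0 x y n) := by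
  have X := S.xNx h hk (.inl rfl)
  have L := S.lokI h (.inl rfl) I.lok I.gap
  have := I.le; have := I.md
  have m : ∀ q ∈ (cNx x y c).support, ∃ τ a, ∃ p ∈ c.support, (τ = 0 ∨ τ = 1) ∧ (a = wa y ∨ a = wl y) ∧
      y - 9 ≤ a.lo ∧ a.lo < y ∧ q.1 = insW τ x y p.1 ∧ q.2.image Wl.b = {a} ∪ p.2.image Wl.b := fun q k => by
    obtain ⟨τ, a, t, ha, k⟩ := St.mem_nx k
    obtain ⟨p, hp, rfl⟩ := mem_K k
    refine ⟨τ, a, p, hp, t, ha, ?_, ?_, rfl, image_K _⟩ <;> rcases ha with rfl | rfl <;>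
      simp only [wa, wl, Bs.lo] <;> omega
  refine ⟨⟨L.ok, L.mL, L.mR, L.ls⟩, I.gap.ins (by omega) 0, fun q k => ?_, by omega, by omega, I.r,
    I.aq.trans ((X.aq n).mono fun j q => I.le.trans q), fun s s1 s2 s3 => ?_, fun l k => ?_, fun a k q => ?_,
    fun q k => ?_⟩
  · obtain ⟨τ, a, p, hp, t, -, -, -, e, -⟩ := m q k
    have := (I.orb p hp).lift (p := Fl (fNx D F x y).ls) (insW 0 x y)
      fun _ _ ⟨l, hl, e⟩ => ⟨l, X.ls hl, e ▸ X.fl l hl _⟩
    rcases t with rfl | rfl <;> rw [e]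
    exacts [this, this.tail ⟨_, mem_insert_self _ _, insW_fl (by omega) _⟩]
  · by_cases e : s = y - 9
    exacts [e ▸ (S.nx h hk).cut, X.cut (by omega) (I.cut s (by omega) s2 s3)]
  · exact (mem_insert.1 k).elim (fun e => e ▸ by show y - 5 < b; omega) (I.ls l)
  · refine I.tw a ((mem_union.1 k).elim (fun k => mem_union_left _ ?_) fun k => mem_union_right _ ?_) q
    · obtain ⟨e, k1, rfl⟩ := mem_image.1 k
      obtain ⟨r, hr, k2⟩ := mem_walls.1 k1
      obtain ⟨τ, a, p, hp, -, -, -, a1, -, e'⟩ := m r hr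
      obtain ⟨f, k3, i⟩ := mem_image.1 ((mem_union.1 (e' ▸ mem_image_of_mem Wl.b k2 :)).resolve_left fun i => by
        rw [mem_singleton.1 i] at q; omega)
      exact mem_image.2 ⟨f, mem_walls.2 ⟨p, hp, k3⟩, i⟩
    · exact (mem_insert.1 k).resolve_left fun e => by rw [e] at q; simp only [Bs.lo] at q; omega
  obtain ⟨τ, a, p, hp, t, ha, a0, a1, e, e'⟩ := m q k
  have T := (S.cell p hp).2.2
  have C := (I.cv p hp).tr (S.xNx h hk t) T.toTo I.le I.cut (β := {a}) (by simpa using a1)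
  rw [e, e']
  refine ⟨fun s s1 s2 s3 => ?_, C.tl⟩
  by_cases e : s = y - 9
  swap
  · exact C.lt s (by omega) s2 s3
  have L : Lt D.k (fNx D F x y) _ τ x y := S.lt h hk t hp (subset_insert _ _)
  rw [e, sub_add_cancel]
  refine fun q => L.win0 I.le ha (Finset.ext fun f => ?_)
  simp only [mem_wn, mem_union, mem_singleton]
  exact ⟨fun k => k.1.resolve_right fun q => by have := T.rt f q; omega, fun k => by
    subst k; exact ⟨.inl rfl, a0, a1⟩⟩

theorem St.wa_mem (S : St D F x y d c) (h : cNx x y c ≠ 0) : ↑(wa y) ∈ (cNx x y c).walls := by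
  by_contra k
  have a1 : (wa y).hi ≤ y := by show y - 6 ≤ y; omega
  have e : K (insW 0 x y) {wa y} c + K (insW 1 x y) {wa y} c = 0 := by
    ext q
    by_contra i
    have j : ↑(wa y) ∈ q.2 := by
      rcases mem_add (Finsupp.mem_support_iff.2 i) with j | j <;> obtain ⟨p, -, rfl⟩ := mem_K j <;> simp
    refine k (mem_walls.2 ⟨q, Finsupp.mem_support_iff.2 ?_, j⟩)
    rwa [cNx, Finsupp.add_apply, (Finsupp.notMem_support_iff (f := _ + K _ {wl y} c)).1 fun r => ?_, add_zero]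
    rcases mem_add r with r | r <;> obtain ⟨p, hp, rfl⟩ := mem_K r <;>
      exact (mem_union.1 j).elim (S.nm a1 p hp) (by simp [wa, wl])
  have e' := congrArg Cn.bd e
  rw [bd_add, bd_K1 S.bd (S.nm a1), bd_K1 S.bd (S.nm a1), bd_zero, K_nil, K_nil] at e'
  exact h (by rw [cNx, e, K_one, K_one, mp_one, mp_one, ← jn_add, e', jn_zero, add_zero])

variable (D) in
/-- the terminal frame -/
def fT (F : Fm Γ) (x y : ℤ) : Fm Γ := frz (frz (fNx D F x y) (x + 7)) (x + 5)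

theorem St.xT (S : St D F x y d c) (h : x + 17 ≤ y) (hk : P.kL = D.k) :
    Xt P (fNx D F x y) (fT D F x y) (y - 9) (cNx x y c) id := by
  obtain ⟨n, -, G⟩ := S.ex
  have := G.lo; have := G.hi
  have l := S.ls_nx (x := x)
  exact ((S.nx h hk).xt.frz (by show F.w.l ≤ _; omega) (by show _ < F.w.r; omega)
    (fun a k => by have := l a k; omega) (by omega)).frz (by show F.w.l ≤ _; omega) (by show _ < F.w.r; omega)
    (fun a k => by have := l a k; omega) (by omega)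

theorem St.z_T {T : WTh Γ} (S : St D F x y d c) (h : x + 17 ≤ y) (H : Ax0 P T) (hk : P.kL = D.k)
    (iv : P.iv D.F D.G) : (fT D F x y).Cl P (d + 1) (cNx x y c) ∧
      T.Z (fT D F x y) (d + 1) (cNx x y c) = T.Z F d c := by
  have N := S.nx h hk
  have C := mp_id (cNx x y c) ▸ N.cl0 (S.xT h hk) fun l k => (N.ls l k).le
  exact ⟨C, (H.frz _ _ _ _ (S.xT h hk).fz N.cl C).symm.trans (S.z_nx h H hk iv)⟩

/-- the coupling slices -/
def tT (x : ℤ) : ℕ → ℤ
  | 0 => x + 7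
  | i + 1 => x + 9 + 36 * (i + 1)

theorem tm_ok (S : St D F x (x + 18) d c) (I : Iv D b w₀ n₀ A F x (x + 18) c n) (hk : P.kL = D.k) {Y : Ref Γ}
    {N : ℕ} {e : ℤ} (ha : Y.a + e = x + 5) (hh : Y.h + e = x + 7) (hs : Y.s + e = x + 18 - 6) (hb : Y.b = b)
    (hN : b = x + 9 + 36 * (N + 1)) (hu : Y.u = (3 / 2, 0)) (hv : Y.v = (5 / 2, 1))
    (hC : 5 / 2 < 2 - Y.C - Y.hd al Y.h) (hr : w₀.r = Y.w.r) (hl : Y.w.l ≤ b) (aq : Aq Y.w w₀ Y.n n₀ (b ≤ ·))
    (hd : Cpy Y.w (D.ins F.w x (x + 18)) Y.n (insW 0 x (x + 18) n) e Y.a Y.s)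
    (hA : ∀ a ∈ A, a.OK Y.w → b < a.lo → a ∈ Y.A) (nz : cNx x (x + 18) c ≠ 0) :
    TD.OK P Y N (fT D F x (x + 18)) ⟨e, 0, insW 0 x (x + 18) n, tT x⟩ (cNx x (x + 18) c) := by
  generalize hy : x + 18 = y at *
  have h : x + 17 ≤ y := by omega
  have S' := S.nx h hk
  have I' := I.nx S h hk
  have X := S.xT h hk
  have aq' := aq.trans I'.aq
  have f5 : .yS (x + 5) ∈ (fT D F x y).fz := mem_insert_self _ _
  have f7 : .yS (x + 7) ∈ (fT D F x y).fz := mem_insert_of_mem (mem_insert_self _ _)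
  have cut := fun s s1 s2 s3 => X.cut s1 (I'.cut s s1 s2 s3)
  have wl : ∀ a ∈ (cNx x y c).walls.image Wl.b, y - 9 < a.lo ∧ a.OK (fT D F x y).w := fun a k => by
    obtain ⟨p, hp, k⟩ : ∃ p ∈ (cNx x y c).support, a ∈ p.2.image Wl.b := by
      simpa only [Cn.walls, biUnion_image, mem_biUnion] using k
    exact ⟨(S'.tl X hp).rt a k, ((S'.tl X hp).ok a k).1⟩
  refine ⟨X.ok, ⟨I'.lok.ok, I'.lok.mL, I'.lok.mR, I'.lok.ls⟩, ⟨ha ▸ f5, hh ▸ f7, ?_⟩, by simp only; omega,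
    (I'.r.trans hr).trans (add_zero _).symm, hd, fun j a _ => ?_, fun a k => ?_, fun a k => ?_, fun a k q => ?_,
    fun l k => ?_, I'.orb, fun p hp q hq => ?_, .inl (hs ▸ S.wa_mem nz), hh.symm, ?_, fun i _ => ⟨?_, ?_⟩,
    fun p hp => ?_⟩
  · simpa only [hb, add_zero] using (cut b (by omega) le_rfl (by omega)).1
  · obtain ⟨a1, a2, a3⟩ := aq' j (hb ▸ a)
    simpa only [add_zero] using ⟨a1, a2, fun _ => a3⟩
  · obtain ⟨p, hp, k⟩ := mem_walls.1 k
    exact .inl ((S'.cell p hp).1 a k)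
  · simp only [ha, hh]
    rcases mem_union.1 k with k | k
    · have := (wl a k).1; omega
    · rcases mem_insert.1 k with k | k
      · exact .inl k
      · exact (mem_insert.1 k).elim (fun k => .inr (.inl k)) fun k => by have := S'.fz a k; omega
  · simp only [hb, add_zero] at q
    rw [show a.sh (-0) = a by cases a <;> simp [Bs.sh]]
    refine hA a (I'.tw a ((mem_union.1 k).elim (mem_union_left _) fun k => mem_union_right _ <|
      (X.fz' a k).resolve_right fun r => ?_) q) (ok_tr ((mem_union.1 k).elim (fun k => (wl a k).2)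
      fun k => (X.ok.fz a k).1) (by omega) (I'.r.trans hr).symm fun j i => (aq' j (by omega)).1.symm) q
    have := (wf_of_ok (X.ok.fz a k).1).1.1
    omega
  · have := S'.ls l k; have := I'.ls l k
    simp only; omega
  · convert hq using 2
    rw [filter_false_of_mem fun a k => by have := S'.rt hp k; simp only; omega,
      filter_true_of_mem fun a k => by have := S'.rt hq k; simp only; omega, empty_union]
  · cases N <;> simp only [tT] <;> push_cast at * <;> omega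
  · cases i <;> simp only [tT] <;> push_cast <;> omega
  · exact cut _ (by simp only [tT]; omega) (by simp only [tT]; omega) (by simp only [tT]; omega)
  have T : Tl P (fT D F x y) (y - 9) _ p.1 _ := S'.tl X hp
  have C : Cv P b (y - 9) (fT D F x y) p.1 (p.2.image Wl.b) := by
    simpa using (I'.cv p hp).tr X (S'.cell p hp).2.2.toTo I'.le I'.cut (β := ∅) (by simp)
  have c9 := cut (y - 9) le_rfl (by omega) (by omega)
  have T0 : To (fT D F x y) p.1 ∅ := ⟨by simp, by simp, by simp, by simp⟩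
  obtain ⟨τ, a, t, -, k⟩ := St.mem_nx hp
  obtain ⟨p₀, hp₀, e⟩ := mem_K k
  have L : Lt D.k (fT D F x y) p.1 τ x y := by
    rw [e]
    exact S.lt h hk t hp₀ ((subset_insert _ _).trans X.fz)
  have lo : (fT D F x y).w.l < x + 2 := L.pt.lo
  have W : ∀ i ≤ N, (nf (fT D F x y)).Win b 0 p.1 (p.2.image Wl.b) (tT x i) (tT x (i + 1)) (3 / 2, 0)
      (5 / 2, 1) := fun i hi => by
    have W := C.four X.ok T.toTo cut (s := x + 9 + 36 * i) (by omega) (by omega) (by omega)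
    rw [show tT x (i + 1) = x + 9 + 36 * i + 36 by simp only [tT]; ring]
    cases i with
    | succ i => exact_mod_cast W
    | zero =>
      rw [show x + 9 + 36 * ((0 : ℕ) : ℤ) = y - 9 by omega] at *
      exact (L.pre hy.le (by omega) T.rt).trans W (by show x + 7 ≤ _; omega) (by omega) (by omega)
        (cut_lt X.ok c9).2.le (fun a k => T.sp c9.1 (mem_wn.1 k).1) fun l k => sp_ls X.ok c9.1 (mem_wn.1 k).1
  refine ⟨[], trivial, (S'.cell p hp).1, by simp, empty_union (p.2.image Wl.b) ▸ T.tor X.ok c9.1 T0 (by simp)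
    fun z hz => head_nil c9 (by omega) hz (fun a k _ => T.rt a (by simpa only [empty_union] using k)) fun l k => (S'.ls l k).le,
    ?_, ?_, .inl ⟨fun _ => (3 / 2, 0), hu.ge, fun i hi => ?_, ?_⟩, ?_⟩ <;> simp only [acts, ha, hh, hb, add_zero]
  · obtain ⟨v, W⟩ := win_nl (F := fT D F x y) (y := x + 5) (n := p.1) ⟨f5,
      congrArg (·.r.2.2) (L.pt.s (k := 2) (by omega) le_rfl (by simp only [tL]; omega)),
      L.pt.nr (k := 2) (j := x + 5) (by omega) le_rfl (by simp only [tL]; omega) ▸ odd_one⟩ (by omega)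
      (fun a k => by have := T.rt a k; omega) 0 (7 / 4 - Y.C - Y.hd al Y.a + 1, 0)
    exact ⟨0, v, _, W, lt_add_one _⟩
  · obtain ⟨z, vR, z1, z2, -, z4, z5, W⟩ := T.join X.ok c9.1 T0 (by simp) (s := x + 7) (by omega)
    rw [empty_union] at W
    exact ⟨z, _, z1, (W _ (win_nf (L.pre hy.le z2 T.rt) fun a k => by
      have := mem_wn.1 k; have := T.rt a this.1; omega)).mono le_rfl ⟨z4, z5⟩, hC⟩
  · convert W i hi.le using 1
    norm_num
  · rw [hv]
    convert W N le_rfl using 1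
    exact hN
  · exact hv ▸ C.tl

variable {T : WTh Γ}

theorem walk (H : Ax0 P T) (hk : P.kL = D.k) (iv : P.iv D.F D.G) (k : ℕ) : ∀ F x y d c n, St D F x y d c →
    Iv D b w₀ n₀ A F x y c n → y = x + 18 + 17 * k → T.Z F d c ≠ 0 → ∃ F x' d c n, St D F x' (x' + 18) d c ∧
      Iv D b w₀ n₀ A F x' (x' + 18) c n ∧ x' = x + 8 * k ∧ T.Z F d c ≠ 0 := by
  induction k with
  | zero =>
    intro F x y d c n S I e z
    obtain rfl : y = x + 18 := by omega
    exact ⟨F, x, d, c, n, S, I, by simp, z⟩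
  | succ k ih =>
    intro F x y d c n S I e z
    have h : x + 17 ≤ y := by omega
    obtain ⟨F', x', d', c', n', a1, a2, a3, a4⟩ := ih _ _ _ _ _ _ (S.nx h hk) (I.nx S h hk) (by omega)
      (S.z_nx h H hk iv ▸ z)
    exact ⟨F', x', d', c', n', a1, a2, by omega, a4⟩

theorem tnE {o : ℤ} (S : SKs P T κ 0 F n z t d c x o) (h : x + 10 ≤ t) : Tn F.w n κ (tE x t) vE (mE o) 3 :=
  ⟨tE_mono h, S.lo, by have := S.tr; simp only [tE]; omega,
    (show Rd F.w n κ (1, 1) o x t by simpa using S.rd).mono le_rfl (by simp only [tE]; omega),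
    fun k hk => by interval_cases k <;> simp [vE, Uni, dt], rfl, rfl⟩

theorem iv_entry (H : Ax0 P T) {F₀ F₁ : Fm Γ} {n₁ : Wt} {c₀ c₁ : Cn} {o x₁ : ℤ} (s₁ : Sam t F₀ n₀ c₀ F₁ n₁ c₁)
    (S₁ : SKs P T D.k 0 F₁ n₁ z t d c₁ x₁ o) (h₁ : x₁ + 10 ≤ t) (s : Sam t F₀ n₀ c₀ F n c)
    (S : SKs P T D.k 0 F n z t d c x o) (h : x + 10 ≤ t) :
    Iv D (t - 7) (F₁.w.put D.k (tE x₁ t) vE 3) (gE o x₁ t n₁) ({wH t, w2 t} ∪ c₀.walls.image Wl.b ∪ F₀.fz)
      (fE D.k F x t) (x + 2) (t - 7) (cE o x t c) (gE o x t n) := by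
  have N := (entry H D S h).1
  have U := tnE S h
  have L := (sb_of S).lokX S.bas.lok (U.ok S.bas.ok.w S.bas.lok.ok).2 rfl rfl
    ((put_ag n).mono fun j q => .inr (by simp only [tE]; omega))
  have ls : (fE D.k F x t).ls = ∅ := S.bas.ls
  have m : ∀ q ∈ (cE o x t c).support, ∃ a, ∃ p ∈ c.support, (a = wH t ∨ a = w2 t) ∧
      q = (gE o x t p.1, p.2 ∪ ({a} : Finset Bs).image (↑)) := fun q k => by
    rcases mem_add k with k | k <;> obtain ⟨p, hp, e⟩ := mem_K k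
    exacts [⟨_, p, hp, .inl rfl, e⟩, ⟨_, p, hp, .inr rfl, e⟩]
  refine ⟨⟨L.ok, L.mL, L.mR, L.ls⟩, ⟨by have := S.lo; show F.w.l < _; omega, by have := S.tr; show _ < F.w.r; omega,
    _, ⟨o - 1, by show 2 * o - 1 = _; ring⟩, (U.pt.rd 1 (by omega)).mono le_rfl (by simp only [tE]; omega)⟩,
    fun q k => ?_, le_rfl, by omega, s.r.trans s₁.r.symm, s₁.aq2 s (k0 := 1) S₁.rd S.rd
      (by simp only [tE]; omega) (by simp only [tE]; omega) (tnE S₁ h₁).pt U.pt
      (fun k q => match k, q with | 2, _ | 3, _ | _ + 4, _ => rfl) (by omega) (by simp only [tE]; omega)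
      (by simp only [tE]; omega), fun u a b _ => a.antisymm b ▸ N.cut, by simp [ls], fun a k q => ?_,
    fun p hp => ⟨fun _ _ _ => by omega, ?_⟩⟩
  · obtain ⟨a, p, hp, -, rfl⟩ := m q k
    rw [(S.ch.cell p hp).1]
  · rcases mem_union.1 k with k | k
    · obtain ⟨e, k1, rfl⟩ := mem_image.1 k
      obtain ⟨r, hr, k2⟩ := mem_walls.1 k1
      obtain ⟨a, p, hp, ha, rfl⟩ := m r hr
      refine mem_union_left _ (mem_union.2 ((mem_union.1 k2).symm.imp (fun i => ?_) fun i => ?_))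
      · rcases ha with rfl | rfl <;> simp only [image_singleton, mem_singleton] at i <;> simp [i]
      · obtain ⟨p₀, hp₀, rfl⟩ := mem_mp (s.c ▸ hp :)
        exact mem_image_of_mem _ (mem_walls.2 ⟨p₀, hp₀, by simpa using i⟩)
    · exact mem_union_right _ (s.fz ▸ (mem_insert.1 k).resolve_left fun e => by
        rw [e] at q; exact q.false)
  · obtain ⟨z, vR, z1, z2, -, z4, z5, W⟩ := (N.cell p hp).2.2.win
    exact ⟨z, z1, z2, W.mono le_rfl ⟨z4, z5⟩⟩

/-- **the case `p = 2`** -/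
theorem opp2 (H : Ax0 P T) (Fw : FactW P T) (D : Dt Γ P.Λ) (hk : P.kL = D.k) (iv : P.iv D.F D.G) {j j' : Γ.J}
    (E : Ent P D.k j j') : False := by
  classical
  obtain ⟨F₀, n₀, c₀, z, t, d, o, h⟩ := E.skf0 H
  have h' : ∀ k : ℕ, ∃ F n c, Sam t F₀ n₀ c₀ F n c ∧ SKs P T D.k 0 F n z t d c (t - 27 - 17 * k) o := fun k => by
    obtain ⟨F, n, c, x, s, S, l⟩ := h (27 + 17 * k)
    exact ⟨F, n, c, s, S.bas, S.tz, S.tr, S.ch, S.lo.trans_le (by omega), S.rd.mono (by omega) le_rfl, S.ne⟩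
  obtain ⟨F₁, n₁, c₁, s₁, S₁⟩ := h' 0
  have key := fun k : ℕ => (h' k).elim fun F => (·.elim fun n => (·.elim fun c q =>
    have e := entry H D q.2 (by omega)
    walk H hk iv k _ _ _ _ _ _ e.1 (iv_entry H s₁ S₁ (by omega) q.1 q.2 (by omega)) (by omega) (e.2 ▸ q.2.ne)))
  obtain ⟨G, x, d₁, c, n, S, I, e, -⟩ := key 0
  have L := S.lokI (by omega) (.inl rfl) I.lok I.gap
  have I' := I.nx S (by omega) hk
  have pt := (I.gap.tn (by omega) 0).pt
  have := I.gap.lo; have := I.gap.hi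
  let Y₀ : Ref Γ := ⟨D.ins G.w x (x + 18), insW 0 x (x + 18) n, {a ∈ {wH t, w2 t} ∪ c₀.walls.image Wl.b ∪ F₀.fz |
    a.OK (D.ins G.w x (x + 18)) ∧ t - 7 < a.lo}, x + 5, x + 7, x + 12, t - 7, 0, (3 / 2, 0), (5 / 2, 1)⟩
  let Y : Ref Γ := { Y₀ with C := ⌊-Y₀.hd al Y₀.h⌋ - 1 }
  obtain ⟨N, hN⟩ := Fw Y ⟨(S.nx (by omega) hk).ok.w, L.ok, L.mL, L.mR,
    pt.rg (by simp only [tL, Y, Y₀]; omega) (by simp only [Y, Y₀]; omega) (by simp only [tL, Y, Y₀]; omega),
    ⟨by simp only [Y, Y₀]; omega, by simp only [Y, Y₀]; omega, by simp only [Y, Y₀]; omega,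
      by show t - 7 < G.w.r; omega⟩,
    ⟨congrArg (·.r.2.2) (pt.s (k := 2) (by omega) le_rfl (by simp only [tL]; omega)),
      pt.nr (k := 2) (j := x + 5) (by omega) le_rfl (by simp only [tL]; omega) ▸ odd_one⟩,
    congrArg (|·.r.2.2|) (pt.s (k := 3) (by omega) le_rfl (by simp only [tL]; omega)),
    congrArg (·.r.2.1) (pt.s (k := 5) (j := x + 12) (by omega) (by simp only [tL]; omega)
      (by simp only [tL]; omega)),
    ⟨_, pt.s (k := 6) (j := x + 12 + 1) (by omega) (by simp only [tL]; omega) (by simp only [tL]; omega)⟩,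
    (I'.cut _ (by omega) le_rfl (by omega)).2, fun a k => (mem_filter.1 k).2⟩
  obtain ⟨G', x', d', c', n', S', J, e', nz⟩ := key (4 * N + 3)
  obtain ⟨C, Z⟩ := S'.z_T (by omega) H hk iv
  refine nz (Z ▸ ?_)
  by_cases c0 : cNx x' (x' + 18) c' = 0
  · rw [c0] at C ⊢
    rw [← add_zero (0 : Cn), H.add _ _ _ _ C C, CharTwo.add_self_eq_zero]
  refine hN N le_rfl _ _ _ _ (tm_ok S' J hk (e := x' - x) (by simp only [Y, Y₀]; omega)
    (by simp only [Y, Y₀]; omega) (by simp only [Y, Y₀]; omega) rfl (by omega) rfl rfl ?_ I'.r.symm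
    (by show G.w.l ≤ _; omega) I'.aq.symm (cpy_pt pt (J.gap.tn (by omega) 0).pt (fun k => by
      rw [← tL_sh]; congr 1 <;> ring) (by simp only [tL, Y, Y₀]; omega) (by simp only [tL, Y, Y₀]; omega))
    (fun a k p q => mem_filter.2 ⟨k, p, q⟩) c0) C
  have := Int.floor_le (-Y₀.hd al Y₀.h)
  show _ < 2 - ((⌊-Y₀.hd al Y₀.h⌋ - 1 : ℤ) : ℝ) - Y₀.hd al Y₀.h
  push_cast
  linarith


end Crest.Agent.X212.Two48
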