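import Crest.Agent.X212.Two48.Lt
import Crest.Agent.X212.Wd38.Tl

/-!
# Row 212, layer G (helper48): chains with lens walls, the two lines of a turn, `RS` of a turn
-/

set_option autoImplicit false
noncomputable section

namespace Crest.Agent.X212.Two48

open Crest.Agent.X212.Rod53 Crest.Agent.X212.Wd38 Crest.Agent.X212.Nm96 Finset Cn

variable {Γ : Nm} {P : Pm Γ} {F G : Fm Γ} {l a b : Bs} {n : Wt} {c c' : Cn} {g g' : Wt → Wt} {d : ℕ}
  {x y μ : ℤ} {β : Finset Bs} {σ : Finset Wl}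

theorem wt_ext {n n' : Wt} (h : ∀ j, n.nl j = n'.nl j ∧ n.nr j = n'.nr j) (h1 : n.mL = n'.mL)
    (h2 : n.mR = n'.mR) : n = n' := by
  cases n; cases n'
  congr <;> funext j
  exacts [(h j).1, (h j).2]

theorem fl_fl (l : Bs) (n : Wt) : fl l (fl l n) = n :=
  wt_ext (fun j => by simp only [fl]; split_ifs <;> simp) rfl rfl

theorem can_fl (h : y ≤ l.lo) (n : Wt) : (fl l n).can x y μ = fl l (n.can x y μ) :=
  wt_ext (fun j => by simp only [fl, Wt.can]; split_ifs <;> omega) rfl rfl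

theorem put_fl {t m : ℕ → ℤ} {N : ℕ} (h : t (N + 1) ≤ l.lo) (n : Wt) :
    (fl l n).put t m N = fl l (n.put t m N) :=
  wt_ext (fun j => by simp only [fl, Wt.put]; split_ifs <;> omega) rfl rfl

theorem ix5 (h : x + 16 ≤ y) {j : ℤ} (a : x + 2 ≤ j) : ix (tL x y) j = 5 ↔ y - 8 < j ∧ j < y - 5 :=
  ⟨fun e => by
    have := ix_le (tL_mono h) a; have := lt_ix (tL_mono h) j
    simp only [e, tL] at *; omega,
  fun k => ix_eq (tL_mono h) (by simp only [tL]; omega) (by simp only [tL]; omega)⟩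

theorem insW_fl (h : x + 16 ≤ y) (n : Wt) : insW 1 x y n = fl (wl y) (insW 0 x y n) := by
  have e : ∀ k, mL 1 k = if k = 5 then 1 - mL 0 k else mL 0 k := fun k => by
    unfold mL; split <;> simp_all
  refine wt_ext (fun j => ?_) rfl rfl
  simp only [fl, insW, Wt.put, wl, Bs.lo, Bs.hi, e]
  by_cases q : tL x y 0 < j ∧ j < tL x y (6 + 1)
  · simp only [q, and_self, if_true, ix5 h q.1.le]
  · have : ¬(y - 8 < j ∧ j < y - 5) := by simp only [tL] at q; omega
    simp only [if_neg q, if_neg this, and_self]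

theorem sph_eq (h : x + 16 ≤ y) : sph (wl y) = Wt.o.put (tL x y) (fun k => if k = 5 then 1 else 0) 6 := by
  refine wt_ext (fun j => ?_) rfl rfl
  by_cases q : tL x y 0 < j ∧ j < tL x y (6 + 1)
  · exact and_self_iff.2 ((if_congr (ix5 h q.1.le).symm rfl rfl).trans (if_pos q).symm)
  · have : ¬(y - 8 < j ∧ j < y - 5) := by simp only [tL] at q; omega
    exact and_self_iff.2 ((if_neg this).trans (if_neg q).symm)

/-! ### chains -/

/-- symmetry under a flip -/
def Sy (l : Bs) (c : Cn) : Prop := ∀ n σ, (l : Wl) ∈ σ → c (fl l n, σ) = c (n, σ)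

theorem Sy.add (h : Sy l c) (h' : Sy l c') : Sy l (c + c') := fun n σ k => by
  simp only [Finsupp.add_apply, h n σ k, h' n σ k]

theorem sy_of (h : ∀ p ∈ c.support, (l : Wl) ∉ p.2) : Sy l c := fun n σ k => by
  rw [Finsupp.notMem_support_iff.1 fun q => h _ q k, Finsupp.notMem_support_iff.1 fun q => h _ q k]

theorem Sy.mp (h : Sy l c) (hg : ∀ n, g (fl l n) = fl l (g n)) (hσ : (l : Wl) ∉ σ) : Sy l (c.mp g id σ) := by
  classical
  intro n τ k
  simp only [Cn.mp, Finsupp.mapDomain, Finsupp.sum, Finsupp.finsetSum_apply, Finsupp.single_apply, image_id,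
    ← sum_filter]
  have key : ∀ m, ∀ p ∈ {p ∈ c.support | (g p.1, p.2 ∪ σ) = (m, τ)}, c (fl l p.1, p.2) = c p ∧
      (fl l p.1, p.2) ∈ {p ∈ c.support | (g p.1, p.2 ∪ σ) = (fl l m, τ)} := fun m p hp => by
    simp only [mem_filter, Prod.mk.injEq, Finsupp.mem_support_iff] at hp ⊢
    have := h p.1 p.2 ((mem_union.1 (hp.2.2 ▸ k)).resolve_right hσ)
    exact ⟨this, this ▸ hp.1, by rw [hg, hp.2.1], hp.2.2⟩
  refine sum_nbij' (fun p => (fl l p.1, p.2)) (fun p => (fl l p.1, p.2)) (fun p hp => ?_)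
    (fun p hp => (key _ p hp).2) (fun p _ => by simp only [fl_fl]) (fun p _ => by simp only [fl_fl])
    fun p hp => (key _ p hp).1.symm
  simpa only [fl_fl] using (key _ p hp).2

theorem sy_swap (c : Cn) : Sy l (c + c.mp (fl l) id ∅) := fun n σ _ => by
  have e : ∀ n, (c.mp (fl l) id ∅) (fl l n, σ) = c (n, σ) := fun n => by
    have := Finsupp.mapDomain_apply (f := fun p : Wt × Finset Wl => (fl l p.1, p.2.image id ∪ ∅))
      (fun p q e => by
        simp only [image_id, union_empty, Prod.mk.injEq] at e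
        exact Prod.ext (by rw [← fl_fl l p.1, e.1, fl_fl]) e.2) c (n, σ)
    simpa only [Cn.mp, image_id, union_empty] using this
  rw [Finsupp.add_apply, Finsupp.add_apply, e, ← e (fl l n), fl_fl, add_comm]

theorem sf_add (h : F.Sf d c) (h' : F.Sf d c') : F.Sf d (c + c') :=
  ⟨fun p k => (mem_add k).elim (h.mem p) (h'.mem p), fun l k => Sy.add (h.sym l k) (h'.sym l k)⟩

/-- new lines, and the toric walls `β` are joined -/
def K (g : Wt → Wt) (β : Finset Bs) (c : Cn) : Cn := c.mp g id (β.image (↑))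

theorem K_nil : K g ∅ c = c.mp g id ∅ := rfl

theorem K_one : K g {a} c = c.mp g id {↑a} := rfl

theorem mem_K {q : Wt × Finset Wl} (h : q ∈ (K g β c).support) :
    ∃ p ∈ c.support, q = (g p.1, p.2 ∪ β.image (↑)) := by simpa only [image_id] using mem_mp h

theorem bd_K1 (h0 : c.bd = 0) (ha : ∀ p ∈ c.support, ↑a ∉ p.2) : (K g {a} c).bd = K g ∅ c := by
  rw [K_one, mp_one, bd_jn, bd_mp, h0, mp_zero, jn_zero, add_zero, K_nil]
  intro q hq
  obtain ⟨p, hp, rfl⟩ := mem_mp hq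
  simpa using ha p hp

theorem bd_K2 (h0 : c.bd = 0) (hab : a ≠ b) (ha : ∀ p ∈ c.support, ↑a ∉ p.2)
    (hb : ∀ p ∈ c.support, ↑b ∉ p.2) : (K g {a, b} c).bd = K g {a} c + K g {b} c := by
  have e : K g {a, b} c = jn a (jn b (c.mp g id ∅)) := by
    simp only [K, jn, mp_mp, image_id, image_insert, image_singleton, empty_union]
    rw [union_comm]; rfl
  rw [e, bd_jj (by rw [bd_mp, h0, mp_zero]) (fun q => hab (congrArg Wl.b q)), K_one, K_one, mp_one, mp_one, J]
  all_goals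
    intro q hq
    obtain ⟨p, hp, rfl⟩ := mem_mp hq
    simpa using (by first | exact ha p hp | exact hb p hp)

theorem image_K (σ : Finset Wl) : (σ ∪ β.image (↑)).image Wl.b = β ∪ σ.image Wl.b := by
  rw [image_union, image_image, union_comm]
  exact congrArg (· ∪ _) image_id

/-! ### `RS` -/

/-- the four exceptional spheres -/
def eL (i : Fin 4) (k : ℕ) : ℤ := if i < k ∧ k ≤ 4 then 1 else 0

/-- the intersection form of the turn -/
def bL (A B : ℕ → ℤ) : ℤ := B 1 * (A 0 + A 2 - 2 * A 1) + B 2 * (A 1 + A 3 - 2 * A 2) +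
  B 3 * (A 2 + A 4 - 2 * A 3) + B 4 * (A 3 + A 5 - A 4) + B 5 * (A 4 + A 6 - 4 * A 5)

theorem lb_sum (A B : ℕ → ℤ) (h : B 0 = 0 ∧ B 6 = 0) :
    ∑ k ∈ Ioc 0 6, lb (vL (k - 1)) (vL k) (A (k - 1)) (A k) (B (k - 1)) (B k) = bL A B := by
  norm_num [sum_Ioc_succ_top, vL, lb, Nm96.rho, dt, h.1, h.2, bL]
  ring

theorem rs_two {κ : Γ.ι} {w : Shp Γ} (h : Tn w n κ (tL x y) vL (mL 1) 6) (ok : w.OK) (hx : x + 16 ≤ y)
    (fz ls : Finset Bs) (hl : ∀ l ∈ ls, y < l.lo) (hl' : ∀ l ∈ ls, l.lo ≤ l.hi) :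
    Fm.RS ⟨w.put κ (tL x y) vL 6, fz, insert (wl y) ls⟩ (n.put (tL x y) (mL 1) 6) (tL x y 0) (tL x y (6 + 1))
      (wc x y) (wd x y) := by
  have A0 : ∀ i, eL i 0 = 0 ∧ eL i 6 = 0 := by decide
  have c := fun i => h.cls (A0 i).1 (A0 i).2
  have z : ∀ u u' x y x' y', dt u u' = 0 → lb u u' x y x' y' = 0 := fun _ _ _ _ _ _ e => by simp [lb, e]
  have t7 : tL x y (6 + 1) = y - 3 := by simp [tL]
  have L : ∀ l ∈ insert (wl y) ls, tL x y 0 < l.lo → l.hi < tL x y (6 + 1) → l = wl y := fun l k _ q =>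
    (mem_insert.1 k).resolve_right fun r => by have := hl l r; have := hl' l r; omega
  have S : ∀ i, pr (w.put κ (tL x y) vL 6) (tL x y 0) (tL x y (6 + 1)) (Wt.o.put (tL x y) (eL i) 6)
      (sph (wl y)) = 1 := fun i => by
    rw [sph_eq hx, pr, (c i).sum (h.cls (a := fun k => if k = 5 then 1 else 0) rfl rfl) lb z,
      lb_sum _ (fun k => if k = 5 then 1 else 0) ⟨rfl, rfl⟩]
    exact_mod_cast (by decide : ∀ i, bL (eL i) (fun k => if k = 5 then 1 else 0) = 1) i
  have sup : ∀ b x' y' (k0 k1 : ℕ), x' < tL x y (k0 + 1) → tL x y k1 ≤ y' →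
      (∀ k ≤ 6, k ≤ k0 ∨ k1 ≤ k → eL 0 k + eL 1 k + b * dt (vL 0) (vL k) = 0) →
      Sup x' y' (cmb {0, 1} (fun _ => 1) (fun i => Wt.o.put (tL x y) (eL i) 6) b
        (fib (w.put κ (tL x y) vL 6) (tL x y 0) (tL x y (6 + 1)))) := fun b x' y' k0 k1 a1 a2 s j q => by
    have := h.sup (ε := fun _ : Unit => Wt.o.put (tL x y) (fun k => eL 0 k + eL 1 k) 6) (i := ()) rfl a1 a2 s j q
    simp only [cmb, sum_singleton, sum_pair (show (0 : Fin 4) ≠ 1 by decide), Wt.put, Wt.o, one_mul] at this ⊢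
    split_ifs at this ⊢ <;> simpa using this
  refine ⟨4, fun i => Wt.o.put (tL x y) (eL i) 6, {0, 1}, fun _ => 1, 0, -1, ?_, fun i => ⟨h.tok ok (A0 i).1
    (A0 i).2, fun j q => ((put_ag (w := w) (κ := κ) (v := vL)) Wt.o j q).2⟩, fun i j => ?_, fun i => ?_, by simp,
    ?_, by simp, fun l k a b => by
      rw [L l k a b]; exact ⟨fun i => (congrArg _ (S i)).trans abs_one, fun i _ => (S i).trans Int.cast_one.symm⟩,
    trivial, trivial, by show x + 2 < x + 3; omega, by rw [t7]; show y - 7 < _; omega, trivial, trivial,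
    by show x + 2 < x + 4; omega, by rw [t7]; show y - 4 < _; omega,
    sup 0 _ _ 0 5 (by show x + 3 < x + 4; omega) le_rfl (by decide),
    sup (-1) _ _ 1 6 (by show x + 4 < x + 5; omega) (by show y - 5 ≤ y - 4; omega) (by decide), by decide⟩
  · rw [card_filter, h.sum h (fun u u' _ _ _ _ => if dt u u' ≠ 0 then 1 else 0) fun _ _ _ _ _ _ e => by simp [e]]
    decide
  · rw [pr, (c i).sum (c j) lb z, lb_sum _ _ (A0 j)]
    exact_mod_cast (by decide : ∀ i j, bL (eL i) (eL j) = if i = j then -1 else 0) i j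
  · rw [pr, h.sum (c i) lb z, lb_sum _ _ (A0 i)]
    exact_mod_cast (by decide : ∀ i, |bL (mL 1) (eL i)| = if i ∈ ({0, 1} : Finset (Fin 4)) then 0 else 1) i
  · rw [show {l ∈ insert (wl y) ls | tL x y 0 < l.lo ∧ l.hi < tL x y (6 + 1)} = {wl y} from
      eq_singleton_iff_unique_mem.2 ⟨mem_filter.2 ⟨mem_insert_self _ _, by show x + 2 < y - 8; omega,
        by rw [t7]; show y - 5 < _; omega⟩, fun l k => by
          have := mem_filter.1 k; exact L l this.1 this.2.1 this.2.2⟩]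
    rfl

end Crest.Agent.X212.Two48
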