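import Crest.Agent.X212.Two48.Wk

/-!
# Row 212, layer G (helper48): the words of the case `p = 2` (pure data)

A turn `f, -2, -1, 0, 1, 2, ∞, -2, f⁻¹` is inserted in a rod of slope `2` on the slots `x, …, y`;
the next turn goes in the slots `x + 8, …, y - 9`.
-/

set_option autoImplicit false
noncomputable section

namespace Crest.Agent.X212.Two48

open Crest.Agent.X212.Rod53 Crest.Agent.X212.Wd38 Crest.Agent.X212.Nm96 Finset

/-- the knot and the two junctions -/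
structure Dt (Γ : Nm) (Λ : NmL Γ) where
  k : Γ.ι
  F : Γ.J
  G : Γ.J
  sF : Γ.src F = (k, (1, 2))
  tF : Γ.tgt F = (k, (1, -2))
  sG : Γ.src G = (k, (1, -2))
  tG : Γ.tgt G = (k, (1, 2))
  okF : ∀ μ, Odd μ → Λ.ok F μ (-1)
  okG : ∀ μ, Odd μ → Λ.ok G (-1) μ

/-- the break points of a turn -/
def tL (x y : ℤ) : ℕ → ℤ
  | 0 => x + 2 | 1 => x + 4 | 2 => x + 5 | 3 => x + 7 | 4 => x + 8 | 5 => y - 7 | 6 => y - 5
  | k + 7 => y - 3 + k

/-- its rods -/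
def vL : ℕ → Z2
  | 0 => (1, -2) | 1 => (1, -1) | 2 => (1, 0) | 3 => (1, 1) | 4 => (1, 2) | 5 => (0, 1) | _ => (-1, 2)

/-- the orders of its two lines, `τ = 0, 1` -/
def mL (τ : ℤ) : ℕ → ℤ
  | 0 => -1 | 1 => 0 | 5 => τ | _ => 1

/-- the line on the word with the two junctions only -/
def midW (x y : ℤ) (n : Wt) : Wt := n.can (x + 1) (y - 2) (-1)

/-- the line on the word with one more turn -/
def insW (τ x y : ℤ) (n : Wt) : Wt := (midW x y n).put (tL x y) (mL τ) 6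

/-- the `S³` slice -/
def wa (y : ℤ) : Bs := .sS (y - 6)
/-- the lens arc -/
def wl (y : ℤ) : Bs := .lA (y - 8) (y - 5)
/-- the arc round `E₁, E₂` -/
def we (x y : ℤ) : Bs := .sA (x + 6) (y - 7)
/-- the arc round `E₁, …, E₄` -/
def wc (x y : ℤ) : Bs := .sA (x + 3) (y - 7)
/-- the arc round `E₁, E₂, E₃, f - E₄` -/
def wd (x y : ℤ) : Bs := .sA (x + 4) (y - 4)
/-- the `S¹ × S²` arc -/
def wR (x y : ℤ) : Bs := .rA (x + 2) (y - 3)

variable {Γ : Nm} {Λ : NmL Γ} (D : Dt Γ Λ) {w : Shp Γ} {n : Wt} {x y τ : ℤ}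

theorem tL_mono (h : x + 16 ≤ y) : StrictMono (tL x y) := strictMono_nat_of_lt_succ fun k =>
  match k with
  | 0 | 1 | 2 | 3 | 4 | 5 | 6 => by simp only [tL]; omega
  | k + 7 => by simp only [tL]; omega

namespace Dt

/-- the two junctions only -/
def mid (w : Shp Γ) (x y : ℤ) : Shp Γ := w.can D.F D.G (x + 1) (y - 2)

/-- one more turn -/
def ins (w : Shp Γ) (x y : ℤ) : Shp Γ := (D.mid w x y).put D.k (tL x y) vL 6

/-- a rod of slope `2` and odd order on the slots `x, …, y` -/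
structure Gap (w : Shp Γ) (n : Wt) (x y : ℤ) : Prop where
  lo : w.l < x
  hi : y < w.r
  rd : ∃ μ, Odd μ ∧ Rd w n D.k (1, 2) μ x y

variable {D}

theorem mid_ag (n : Wt) (h : x + 16 ≤ y) : Aq w (D.mid w x y) n (midW x y n) fun j => j ≤ x ∨ y - 1 ≤ j :=
  (can_ag n (by omega)).mono fun j q => by omega

theorem ins_ag (n : Wt) (h : x + 16 ≤ y) : Aq w (D.ins w x y) n (insW τ x y n) fun j => j ≤ x ∨ y - 1 ≤ j :=
  fun j q => by
    obtain ⟨a, b, c⟩ := mid_ag (D := D) (w := w) n h j q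
    obtain ⟨a', b', c'⟩ := put_ag (w := D.mid w x y) (κ := D.k) (t := tL x y) (v := vL) (m := mL τ) (N := 6)
      (midW x y n) j (by simp only [tL]; omega)
    exact ⟨a'.trans a, b'.trans b, c'.trans c⟩

namespace Gap

variable (g : D.Gap w n x y) (h : x + 16 ≤ y)
include g h

theorem can : w.Can (D.mid w x y) D.F D.G (x + 1) (y - 2) := by
  obtain ⟨μ, -, r⟩ := g.rd
  have := g.lo; have := g.hi
  exact can_can (n := n) (μ := μ) (by omega) (by omega) (by omega)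
    (by rw [D.sF]; exact r.mono (by omega) (by omega))

theorem mid_ok (a : w.OK) (b : n.OK w Λ) : (D.mid w x y).OK ∧ (midW x y n).OK (D.mid w x y) Λ := by
  obtain ⟨μ, o, r⟩ := g.rd
  have := g.lo; have := g.hi
  exact can_ok a b (by omega) (by omega) (by omega) (by rw [D.sF]; exact r.mono (by omega) (by omega))
    (D.sG.trans D.tF.symm) (D.tG.trans D.sF.symm) (by rw [D.tF]; exact ⟨(0, 1), by simp [Uni, dt]⟩)
    (D.okF μ o) (D.okG μ o)

theorem tn (τ : ℤ) : Tn (D.mid w x y) (midW x y n) D.k (tL x y) vL (mL τ) 6 := by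
  have := g.lo; have := g.hi
  refine ⟨tL_mono h, by show w.l < x + 2; omega, by show y - 3 + (0 : ℕ) < w.r; omega, ?_, fun k hk => ?_,
    rfl, rfl⟩
  · have := can_rd (w := w) (J := D.F) (J' := D.G) (x := x + 1) (y := y - 2) (μ' := -1) n
    rw [D.tF] at this
    exact this.mono (by simp only [tL]; omega) (by simp only [tL]; omega)
  · interval_cases k <;> simp [vL, Uni, dt]

theorem dt0 (c : ℤ) (a : y - 3 ≤ c) (b : c ≤ y) : dt ((D.ins w x y).lf c) ((D.ins w x y).rt c) = 0 := by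
  obtain ⟨μ, -, r⟩ := g.rd
  have t := g.tn h 0
  have e0 : ∀ j, y - 1 ≤ j → j ≤ y → (D.ins w x y).s j = .rod (D.k, (1, 2)) := fun j p q =>
    (ins_ag (τ := 0) n h j (.inr p)).1.trans (r j (by omega) q).1
  have e1 : (D.ins w x y).s (y - 2) = .jn D.G :=
    (put_ag (m := mL 0) n _ (.inr (by simp only [tL]; omega))).1.trans (can_y (μ' := 0) n (by omega)).1
  have e2 : (D.ins w x y).s (y - 3) = .rod (D.k, (1, -2)) :=
    (t.rdN _ (by simp only [tL]; omega) (by simp only [tL]; omega)).1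
  have e3 : (D.ins w x y).s (y - 4) = .rod (D.k, (-1, 2)) :=
    t.pt.s (k := 6) le_rfl (by simp only [tL]; omega) (by simp only [tL]; omega)
  rw [Shp.lf, Shp.rt]
  rcases (show c = y - 3 ∨ c = y - 2 ∨ c = y - 1 ∨ c = y by omega) with rfl | rfl | rfl | rfl
  · rw [show y - 3 - 1 = y - 4 by ring, e3, e2]; rfl
  · rw [show y - 2 - 1 = y - 3 by ring, e2, e1, Sl.l, D.sG]; rfl
  · rw [show y - 1 - 1 = y - 2 by ring, e1, e0 _ le_rfl (by omega), Sl.r, D.tG]; rfl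
  · rw [e0 _ le_rfl (by omega), e0 _ (by omega) le_rfl]; rfl

theorem ins (τ : ℤ) : D.Gap (D.ins w x y) (insW τ x y n) (x + 8) (y - 9) := by
  have := g.lo; have := g.hi
  exact ⟨by show w.l < _; omega, by show _ < w.r; omega, 1, odd_one,
    ((g.tn h τ).pt.rd 4 (by omega)).mono (by simp only [tL]; omega) (by simp only [tL]; omega)⟩

end Gap

end Dt

/-! ### one piece from numbers -/

section pl
variable {F : Fm Γ} {κ : Γ.ι} {T : ℕ → ℤ} {V : ℕ → Z2} {m : ℕ → ℤ} {N k₀ : ℕ} {s u : ℤ} {σ B U L : Finset Bs}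
  {ch : Bs → Bool → ℤ} {v v' : ℝ × ℝ} {η : Bs → Bool}

/-- the sum over the sites of a piece of a pattern -/
def sx (T : ℕ → ℤ) (V : ℕ → Z2) (k₀ N : ℕ) (i j : Bs → ℕ) (B : Finset Bs) (η : Bs → Bool)
    (φ : Z2 → Z2 → ℤ → ℤ → ℝ) (p : ℕ → ℤ) : ℝ :=
  ∑ k ∈ Ioc k₀ N, (if InV B η (T k) then φ (V (k - 1)) (V k) (p (k - 1)) (p k) else 0) +
    ∑ a ∈ B, if a.arc ∧ Adj B η a then
      (if η a then 1 else -1) * φ (V (i a)) (V (j a)) (p (i a)) (p (j a)) else 0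

/-- parameters, cuts, entry and charges -/
def ex (U L B : Finset Bs) (η : Bs → Bool) (ch : Bs → Bool → ℤ) (μ e : ℝ) : ℝ :=
  (∑ a ∈ U, if Adj B η a then μ else 0) +
    (∑ l ∈ L, if Adj B η l then (if ∀ a ∈ B, a.Far l then -2 * μ else 0) else 0) +
    ∑ a ∈ B, if Adj B η a then (if a.side (a.lo + 1) = η a then e else 0) - ch a (η a) else 0

/-- the feet of an arc -/
def Ft (T : ℕ → ℤ) (N : ℕ) (s u : ℤ) (i j : Bs → ℕ) (a : Bs) : Prop := (s ≤ a.lo ∧ a.lo < u) ∧ (a.arc →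
  i a ≤ N ∧ j a ≤ N ∧ T (i a) ≤ a.lo ∧ a.lo < T (i a + 1) ∧ T (j a) ≤ a.hi ∧ a.hi < T (j a + 1) ∧
    a.lo < a.hi ∧ a.hi ≤ u)

section
variable (h : Pt F.w n κ T V m N) (i j : Bs → ℕ) (s1 : T k₀ ≤ s) (s2 : s < T (k₀ + 1)) (hk : k₀ ≤ N)
  (u1 : T N < u) (su : s < u) (u2 : u ≤ F.w.r)
  (hz : ∀ c, T (N + 1) ≤ c → c ≤ u → dt (F.w.lf c) (F.w.rt c) = 0) (hB : ∀ a ∈ B, Ft T N s u i j a)
  (hL : wn s u F.ls = L) (hU : U ⊆ wn s u (σ \ B))
include h s1 s2 hk u1 su u2 hz hB hL hU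

theorem pl_core : (∀ φ μ e, Zr φ → 0 ≤ μ →
    sx T V k₀ N i j B η φ m + ex U L B η ch μ e ≤ F.Ev n σ B η ch φ μ e s u) ∧
    ∀ n', Tp F.w n n' s u → ∃ p : ℕ → ℤ, (∀ k ≤ N, k₀ ≤ k → (p k - m k - (V k).1 * (V k).2) % 2 = 0) ∧
      ssum F.w B η s u lq n' = sx T V k₀ N i j B η lq p := by
  have e : ∀ φ n' p, Zr φ → Ow n' T p N s u → ssum F.w B η s u φ n' = sx T V k₀ N i j B η φ p :=
    fun φ n' p hφ o => by
      rw [ssum_pt h o hφ s1 s2 hk u1.le su.le u2 hz fun a k => (hB a k).1, sx]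
      congr 1
      refine sum_congr rfl fun a k => ?_
      split_ifs with q <;> try rfl
      all_goals
        obtain ⟨a1, a2, a3, a4, a5, a6, a7, a8⟩ := (hB a k).2 q.1
        rw [vv_pt h o a1 a2 a3 a4 a5 a6 (hB a k).1.1 a7 a8]
  refine ⟨fun φ μ e' hφ hμ => ?_, fun n' tp => ?_⟩
  · rw [ex, ← add_assoc, ← add_assoc, ← e _ _ _ hφ (pt_ow h)]
    exact ev_ge hμ (fun a k => (hB a k).1) hL hU
  · obtain ⟨p, o, par⟩ := tp_ow h tp u1 su
    exact ⟨p, fun k a b => Int.even_iff.1 (par k a (s2.trans_le (h.mono.monotone (by omega)))), e _ _ _ zr_lq o⟩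

theorem pl_of (H : dp B η s u v.1 v'.1 ≤ sx T V k₀ N i j B η al m + ex U L B η ch (1 / 4) (13 / 4) ∧
      ∀ p : ℕ → ℤ, (∀ k ≤ N, k₀ ≤ k → (p k - m k - (V k).1 * (V k).2) % 2 = 0) →
      sx T V k₀ N i j B η lq p ≤ 0 → dp B η s u v.2 v'.2 ≤
        -3 / 2 * sx T V k₀ N i j B η lq p + sx T V k₀ N i j B η om m + ex U L B η ch 1 1) :
    Pl F n σ B ch s u v v' η := by
  obtain ⟨g, g'⟩ := pl_core h i j s1 s2 hk u1 su u2 hz hB hL hU (η := η) (ch := ch)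
  refine ⟨H.1.trans (g _ _ _ zr_al (by norm_num)), fun n' tp q => ?_⟩
  obtain ⟨p, par, e⟩ := g' n' tp
  have := H.2 p par (e ▸ q)
  have := g _ _ 1 zr_om zero_le_one
  rw [e]; linarith

theorem pc_of {z : ℤ} (uz : u ≤ z)
    (H : dp B η s u v.1 v'.1 ≤ sx T V k₀ N i j B η al m + ex U L B η ch (1 / 4) (13 / 4) ∧
      ∀ p : ℕ → ℤ, (∀ k ≤ N, k₀ ≤ k → (p k - m k - (V k).1 * (V k).2) % 2 = 0) → dp B η s u v.2 v'.2 ≤
        -3 / 2 * sx T V k₀ N i j B η lq p + sx T V k₀ N i j B η om m + ex U L B η ch 1 1) :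
    F.Pc z 0 n σ B ch s u v v' η := by
  obtain ⟨g, g'⟩ := pl_core h i j s1 s2 hk u1 su u2 hz hB hL hU (η := η) (ch := ch)
  refine ⟨by simpa using H.1.trans (g _ _ _ zr_al (by norm_num)), .inr fun n' tp _ => ?_⟩
  obtain ⟨p, par, e⟩ := g' n' tp
  have := H.2 p par
  have := g _ _ 1 zr_om zero_le_one
  rw [show ee z B η u = u from if_neg (by omega), e, sub_zero]; linarith

end

theorem adj_one {a : Bs} : Adj {a} η a := by simp [Adj, InV]

theorem adj_l {a b : Bs} (h : a ≠ b) : Adj {a, b} η a ↔ b.side (a.lo + 1) = η b := by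
  simp [Adj, InV, erase_insert_eq_erase, erase_eq_of_notMem, h]

theorem adj_r {a b : Bs} (h : a ≠ b) : Adj {a, b} η b ↔ a.side (b.lo + 1) = η a := by
  rw [pair_comm, adj_l h.symm]

theorem adj_np {a : Bs} (hp : ∀ b ∈ B, b.pin) (h : ¬a.pin) : Adj B η a ↔ InV B η (a.lo + 1) := by
  rw [Adj, erase_eq_of_notMem fun k => h (hp a k)]

theorem sub_pair {a b : Bs} (h : B ⊆ {a, b}) : B = ∅ ∨ B = {a} ∨ B = {b} ∨ B = {a, b} := by
  simpa only [← coe_inj, coe_empty, coe_singleton, coe_insert] using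
    Set.subset_pair_iff_eq.1 (by simpa using coe_subset.2 h)

theorem odd_sq (a : ℤ) (h : a % 2 = 1) : (1 : ℝ) ≤ (a : ℝ) ^ 2 := by
  have : a ≠ 0 := by omega
  exact_mod_cast (one_le_sq_iff_one_le_abs a).2 (Int.one_le_abs this)

end pl

end Crest.Agent.X212.Two48
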