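import Crest.Agent.X212.Two48.Step
import Crest.Agent.X212.Wd38.P1

/-!
# Row 212, layer G (helper48): the entry turn `1, 2, ∞, 1` and the walk of the case `p = 2`
-/

set_option autoImplicit false
set_option linter.unusedSimpArgs false
set_option linter.unusedTactic false
set_option linter.unreachableTactic false
noncomputable section

namespace Crest.Agent.X212.Two48

open Crest.Agent.X212.Rod53 Crest.Agent.X212.Wd38 Crest.Agent.X212.Nm96 Finset Cn

variable {Γ : Nm} {P : Pm Γ} {κ : Γ.ι} {F : Fm Γ} {n : Wt} {o x t z : ℤ} {σ β B : Finset Bs} {a : Bs}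

/-- the break points of the entry turn -/
def tE (x t : ℤ) : ℕ → ℤ
  | 0 => x | 1 => x + 2 | 2 => t - 5 | 3 => t - 3 | k + 4 => t - 2 + k

/-- its rods -/
def vE : ℕ → Z2
  | 0 => (1, 1) | 1 => (1, 2) | 2 => (0, 1) | _ => (-1, -1)

/-- its orders -/
def mE (o : ℤ) : ℕ → ℤ
  | 0 => o | 1 => 2 * o - 1 | 2 => o - 1 | _ => -o

/-- the slice -/
def wH (t : ℤ) : Bs := .sS (t - 4)
/-- the arc round the rod of slope `2` -/
def w1 (x t : ℤ) : Bs := .sA (x + 1) (t - 5)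
/-- the arc round the rod `∞` -/
def w2 (t : ℤ) : Bs := .sA (t - 6) (t - 3)

theorem tE_mono (h : x + 10 ≤ t) : StrictMono (tE x t) := strictMono_nat_of_lt_succ fun k =>
  match k with
  | 0 | 1 | 2 | 3 => by simp only [tE]; omega
  | k + 4 => by simp only [tE]; omega

/-- a frame with the entry turn -/
structure En (κ : Γ.ι) (F : Fm Γ) (n : Wt) (o x t : ℤ) : Prop where
  pt : Pt F.w n κ (tE x t) vE (mE o) 3
  hi : t ≤ F.w.r
  dt0 : ∀ c, t - 2 ≤ c → c ≤ t → dt (F.w.lf c) (F.w.rt c) = 0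
  le : x + 10 ≤ t
  ls : F.ls = ∅
  cut : F.Cut t

/-- left feet -/
def iE (x : ℤ) (a : Bs) : ℕ := if a.lo = x + 1 then 0 else 1

/-- right feet -/
def jE (t : ℤ) (a : Bs) : ℕ := if a.hi = t - 5 then 2 else 3

/-- charges -/
def chE (a : Bs) (s : Bool) : ℤ := if a.arc then (if s then -2 else 3) else if s then -1 else 1

theorem cgE (h : F.ls = ∅) {s : ℤ} : Cg F B chE s t :=
  ⟨by simpa [h, wn] using sum_nonneg fun a _ => by unfold chE; split_ifs <;> simp_all,
    fun a _ => by unfold Sz chE; split_ifs <;> simp_all⟩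

theorem facE {p : ℕ → ℤ} {k₀ : ℕ} (hk : k₀ ≤ 1)
    (par : ∀ k ≤ 3, k₀ ≤ k → (p k - mE o k - (vE k).1 * (vE k).2) % 2 = 0) :
    1 - (k₀ : ℝ) ≤ ((p 0 : ℝ) + p 2 - p 1) ^ 2 ∧ 1 ≤ ((p 1 : ℝ) + p 3 - p 2) ^ 2 := by
  have := par 1 (by omega) hk; have := par 2 (by omega) (by omega); have := par 3 (by omega) (by omega)
  refine ⟨?_, ?_⟩
  · interval_cases k₀
    · have := par 0 (by omega) (by omega)
      simp only [mE, vE] at *
      exact_mod_cast odd_sq (p 0 + p 2 - p 1) (by omega)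
    · simpa using sq_nonneg _
  · simp only [mE, vE] at *
    exact_mod_cast odd_sq (p 1 + p 3 - p 2) (by omega)

theorem adj_nil {η : Bs → Bool} : Adj ∅ η a := by simp [Adj, InV]

theorem En.pl (h : En κ F n o x t) {k₀ : ℕ} {s : ℤ} {U : Finset Bs} {v : ℝ × ℝ} (η : Bs → Bool)
    (hU : U ⊆ wn s t (σ \ B))
    (hB : (k₀ = 0 ∧ s = x ∧ v = 0 ∧ U = ∅ ∧ ¬InV B η (x + 1) ∧
        (B = {wH t} ∨ B = {w1 x t} ∨ B = {w2 t} ∨ B = {wH t, w1 x t})) ∨
      (k₀ = 1 ∧ s = t - 7 ∧ v = (5 / 2, 1) ∧ ((B = ∅ ∧ ∃ a, U = {a}) ∨ (U = ∅ ∧ (B = {wH t} ∨ B = {w2 t}))))) :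
    Pl F n σ B chE s t v (1 / 2, -1) η := by
  have := h.le
  have i1 : iE x (.sA (x + 1) (t - 5)) = 0 := if_pos rfl
  have i2 : iE x (.sA (t - 6) (t - 3)) = 1 := if_neg (by show t - 6 ≠ _; omega)
  have j1 : jE t (.sA (x + 1) (t - 5)) = 2 := if_pos rfl
  have j2 : jE t (.sA (t - 6) (t - 3)) = 3 := if_neg (by show t - 3 ≠ _; omega)
  have e : Bs.sS (t - 4) ≠ .sA (x + 1) (t - 5) := nofun
  refine pl_of h.pt (iE x) (jE t) (k₀ := k₀) (L := ∅) ?_ ?_ (by omega) (by simp only [tE]; omega) (by omega) h.hi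
    (fun c a => h.dt0 c (by simpa [tE] using a)) ?_ (by simp [h.ls, wn]) hU ?_
  · rcases hB with ⟨rfl, rfl, -⟩ | ⟨rfl, rfl, -⟩ <;> simp only [tE] <;> omega
  · rcases hB with ⟨rfl, rfl, -⟩ | ⟨rfl, rfl, -⟩ <;> simp only [tE] <;> omega
  · rcases hB with ⟨-, rfl, -, -, -, rfl | rfl | rfl | rfl⟩ | ⟨-, rfl, -, ⟨rfl, -⟩ | ⟨-, rfl | rfl⟩⟩ <;>
      simp only [wH, w1, w2, Ft, i1, i2, j1, j2, Bs.lo, Bs.hi, Bs.arc, mem_insert, mem_singleton, forall_eq_or_imp,
        forall_eq, notMem_empty, false_imp_iff, implies_true, true_imp_iff, tE, and_true] <;> omega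
  clear h hU
  rcases hB with ⟨rfl, rfl, rfl, rfl, i, rfl | rfl | rfl | rfl⟩ |
    ⟨rfl, rfl, rfl, ⟨rfl, a, rfl⟩ | ⟨rfl, rfl | rfl⟩⟩ <;>
    simp only [wH, w1, w2, sx, ex, sum_Ioc_succ_top (Nat.zero_le _), sum_Ioc_succ_top (Nat.le_add_left 1 _),
      Ioc_self, tE, sum_pair e, adj_l e, adj_r e, adj_nil] at *
  on_goal 1 => cases ha : η (.sS (t - 4))
  on_goal 3 => cases ha : η (.sA (s + 1) (t - 5))
  on_goal 5 => cases ha : η (.sA (t - 6) (t - 3))
  on_goal 7 => cases ha : η (.sS (t - 4)) <;> cases hb : η (.sA (s + 1) (t - 5))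
  on_goal 12 => cases ha : η (.sS (t - 4))
  on_goal 14 => cases ha : η (.sA (t - 6) (t - 3))
  all_goals
    try revert i
    simp only [chE]
    sd_ev
    try intro (i : ¬_)
    first
    | omega
    | refine ⟨by norm_num [vE, mE, al, Nm96.lp, lg, nn, lq, lb, Nm96.rho, dt, show Int.sign 2 = 1 from rfl] <;>
        linarith, fun p par q => ?_⟩
      obtain ⟨a1, a2⟩ := facE (by omega) par
      simp only [Nat.cast_zero, Nat.cast_one] at a1
      have := sq_nonneg ((p 1 : ℝ) - 2 * p 2)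
      clear par
      norm_num [vE, mE, om, Nm96.lp, lg, nn, lq, lb, Nm96.rho, dt, show Int.sign 2 = 1 from rfl] at q ⊢ <;>
        linarith

theorem En.hd (h : En κ F n o x t) (hβ : (∀ e ∈ β, e.pin → e = wH t ∨ e = w1 x t) ∨ ∀ e ∈ β, e.pin → e = w2 t)
    (hσ : ∀ a ∈ σ, t < a.lo) (hz : t ≤ z) : ∃ v, F.Win z 0 n (β ∪ σ) (F.w.l - 1) t v (1 / 2, -1) := by
  have := h.le
  refine head_of (s := x) h.cut hz h.pt.lo.le (by omega) (forall_mem_union.2 ⟨fun e k q => ?_,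
    fun e k _ => by have := hσ e k; omega⟩) (by simp [h.ls]) fun B k q => ⟨chE, cgE h.ls, fun η i => ?_⟩
  · rcases hβ.imp (· e k q) (· e k q) with (rfl | rfl) | rfl <;> simp only [wH, w1, w2, Bs.lo] <;> omega
  have m : ∀ e ∈ B, e ∈ β := fun e i => by
    have j := mem_wn.1 (k i)
    exact (mem_union.1 j.1).resolve_right fun r => by have := hσ e r; omega
  have ne : B ≠ ∅ := fun e => i (by simp [e, InV])
  refine h.pl (k₀ := 0) η (empty_subset _) (.inl ⟨rfl, rfl, rfl, rfl, i, ?_⟩)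
  rcases hβ with b | b
  · have := sub_pair (B := B) (a := wH t) (b := w1 x t) fun e i => by simpa using b e (m e i) (q e i)
    tauto
  · have := subset_singleton_iff.1 (show B ⊆ {w2 t} from fun e i => by simpa using b e (m e i) (q e i))
    tauto

theorem En.win (h : En κ F n o x t) (hz : t ≤ z) (hc : F.Cut (t - 7)) (ha : a = wH t ∨ a = w2 t)
    (hσ : wn (t - 7) t σ = {a}) : F.Win z 0 n σ (t - 7) t (5 / 2, 1) (1 / 2, -1) :=
  win_of hc h.cut hz fun B k _ => ⟨chE, cgE h.ls, fun η => by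
    rcases subset_singleton_iff.1 (hσ ▸ k) with rfl | rfl
    · exact h.pl (k₀ := 1) (U := {a}) η (by rw [sdiff_empty, hσ]) (.inr ⟨rfl, rfl, rfl, .inl ⟨rfl, a, rfl⟩⟩)
    · exact h.pl (k₀ := 1) η (empty_subset _) (.inr ⟨rfl, rfl, rfl, .inr ⟨rfl, by rcases ha with rfl | rfl <;> simp⟩⟩)⟩

theorem En.wall (h : En κ F n o x t) (ha : a = wH t ∨ a = w1 x t ∨ a = w2 t) {l : Bs} :
    a.OK F.w ∧ a.OKn F.w n ∧ a.hi + 1 < t ∧ x < a.lo ∧ (l ∈ F.ls → Ps a l) := by
  have := h.le; have := h.hi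
  have lo : F.w.l < x := h.pt.lo
  have r : ∀ p q, x ≤ p → p < q → q ≤ t - 3 → F.w.Rg p q := fun p q a b c =>
    h.pt.rg (by simp only [tE]; omega) b (by simp only [tE]; omega)
  have e : ∀ k ≤ 3, ∀ j, tE x t k ≤ j ∧ j < tE x t (k + 1) → F.w.s j = .rod (κ, vE k) := fun k a j b =>
    h.pt.s a b.1 b.2
  have e0 := e 0 (by omega) (x + 1) (by simp only [tE]; omega)
  have e1 := e 1 (by omega) (t - 6) (by simp only [tE]; omega)
  have e2 := e 2 (by omega) (t - 5) (by simp only [tE]; omega)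
  have e2' := e 2 (by omega) (t - 4) (by simp only [tE]; omega)
  have e3 := e 3 (by omega) (t - 3) (by simp only [tE]; omega)
  rcases ha with rfl | rfl | rfl <;>
    simp only [wH, w1, w2, Bs.OK, Bs.OKn, Bs.lo, Bs.hi, e0, e1, e2, e2', e3, h.ls, notMem_empty, false_imp_iff,
      Sl.l, Sl.r, vE, true_and, and_true]
  · omega
  all_goals exact ⟨⟨r _ _ (by omega) (by omega) (by omega), by simp [Uni, dt]⟩, by omega, by omega⟩

/-- the frame with the entry turn -/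
def fE0 (κ : Γ.ι) (F : Fm Γ) (x t : ℤ) : Fm Γ := { F with w := F.w.put κ (tE x t) vE 3 }

/-- the first frame of the walk -/
def fE (κ : Γ.ι) (F : Fm Γ) (x t : ℤ) : Fm Γ := frz (fE0 κ F x t) (t - 7)

/-- its line -/
def gE (o x t : ℤ) : Wt → Wt := Wt.put (tE x t) (mE o) 3

/-- the first chain of the walk -/
def cE (o x t : ℤ) (c : Cn) : Cn := K (gE o x t) {wH t} c + K (gE o x t) {w2 t} c

variable {T : WTh Γ} {d : ℕ} {c : Cn}

theorem sb_of (S : SKs P T κ 0 F n z t d c x o) : Sb P F t (1 / 2, -1) d c := by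
  have B := S.bas
  obtain ⟨k1, k2, k3⟩ := B.hi.resolve_right fun k => by have := S.tr; omega
  refine ⟨B.ok, k1, B.fz, by simp [B.ls], (S.ch.cl B).toSf, S.ch.pre.bd, fun p hp => ?_⟩
  obtain ⟨e, tw, h⟩ := S.ch.cell p hp
  rw [e]
  exact ⟨tw, B.lok, ⟨fun a k => ⟨(h.ok a k).2.2, okn_of_pin (h.ok a k).2.1⟩, h.far, h.fz, by simp [B.ls]⟩,
    fun a k => (h.ok a k).1, z, vR P, k3, k2, (cut_lt B.ok k3).2.le, le_rfl, le_rfl,
    by simpa [vT, show (1 : ℝ) - 2⁻¹ = 2⁻¹ by norm_num] using h.win S.tr⟩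

/-- **the entry** -/
theorem entry (H : Ax0 P T) (D : Dt Γ P.Λ) (S : SKs P T D.k 0 F n z t d c x o) (h : x + 10 ≤ t) :
    St D (fE D.k F x t) (x + 2) (t - 7) (d + 1) (cE o x t c) ∧
      T.Z (fE D.k F x t) (d + 1) (cE o x t c) = T.Z F d c := by
  have A := sb_of S
  have ls := S.bas.ls
  have tr := (cut_lt A.ok A.cut).2
  have lo := S.lo
  have T4 : tE x t (3 + 1) = t - 2 := by simp [tE]
  have rd : Rd F.w n D.k (1, 1) o x t := by simpa using S.rd
  have U : Tn F.w n D.k (tE x t) vE (mE o) 3 := ⟨tE_mono h, lo, by omega, rd.mono le_rfl (by omega),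
    fun k hk => by interval_cases k <;> simp [vE, Uni, dt], rfl, rfl⟩
  have e : ∀ p ∈ c.support, p.1 = n := fun p hp => (S.ch.cell p hp).1
  have aq : ∀ n, Aq F.w (F.w.put D.k (tE x t) vE 3) n (gE o x t n) (t - 2 ≤ ·) := fun n =>
    (put_ag n).mono fun j q => .inr (by omega)
  have O := U.ok A.ok.w S.bas.lok.ok
  have X : Xt P F (fE0 D.k F x t) t c (gE o x t) := ⟨A.okX O.1 rfl rfl fun j q => (aq n j (by omega)).1, rfl, rfl,
    fun n => (aq n).mono fun j q => by omega, Subset.rfl, fun _ => .inl, Subset.rfl, fun _ => .inl,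
    by simp [ls], fun p hp => e p hp ▸ A.lokX S.bas.lok O.2 rfl rfl ((aq n).mono fun j q => by omega)⟩
  have E : ∀ fz, F.fz ⊆ fz → En D.k { fE0 D.k F x t with fz := fz } (gE o x t n) o x t := fun fz f =>
    ⟨U.pt, tr.le, fun j a b => by
      have r := (aq n j a).1.trans (rd j (by omega) b).1
      rcases a.eq_or_lt with rfl | a
      · exact (congrArg₂ dt (U.pt.lf (k := 3) (j := t - 2) le_rfl (by simp only [tE]; omega) (by omega))
          (congrArg (·.l.2) r)).trans rfl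
      · exact (congrArg₂ dt (congrArg (·.r.2) ((aq n (j - 1) (by omega)).1.trans (rd _ (by omega) (by omega)).1))
          (congrArg (·.l.2) r)).trans rfl, h, ls, f A.cut.1, (A.cutX X).2⟩
  have E0 : En D.k (fE0 D.k F x t) (gE o x t n) o x t := E _ Subset.rfl
  have okR : ∀ {G : Fm Γ} {m}, G.ls = ∅ → G.w.Rg x (t - 2) → Rd G.w m D.k (1, 1) o x x →
      Rd G.w m D.k (1, 1) o (t - 2) (t - 2) → (Bs.rA x (t - 2)).OK G.w ∧ (Bs.rA x (t - 2)).OKn G.w m ∧
        (Bs.rA x (t - 2)).hi + 1 < t ∧ x - 1 < (Bs.rA x (t - 2)).lo ∧ (.sS 0 ∈ G.ls → Ps (.rA x (t - 2)) (.sS 0)) :=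
    fun g r a b => by
      have r0 := a _ le_rfl le_rfl
      have r1 := b _ le_rfl le_rfl
      refine ⟨⟨r, .inl ((congrArg (·.l.2) r1.1).trans (congrArg (·.r.2) r0.1).symm)⟩,
        ⟨fun _ => r1.2.1.trans r0.2.2.symm, fun q => ?_⟩, by show t - 2 + 1 < t; omega, by show x - 1 < x; omega,
        by simp [g]⟩
      have := (congrArg (·.l.2) r1.1).symm.trans (q.trans (congrArg (-·.r.2) r0.1))
      simp [Sl.l, Sl.r] at this
  have hd : ∀ {β}, ((∀ e ∈ β, e.pin → e = wH t ∨ e = w1 x t) ∨ ∀ e ∈ β, e.pin → e = w2 t) →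
      (∀ a ∈ β, ∀ b ∈ β, a ≠ b → a.Far b) → (∀ a ∈ β, a = .rA x (t - 2) ∨ a = wH t ∨ a = w1 x t ∨ a = w2 t) →
      Hd (fE0 D.k F x t) t (1 / 2, -1) c (gE o x t) β := fun hβ far hw =>
    ⟨fun a k => by rcases hw a k with rfl | rfl | rfl | rfl <;> simp only [wH, w1, w2, Bs.hi] <;> omega,
      fun p hp => e p hp ▸ ⟨to_of (l := .sS 0) (s := x - 1) (y := t) (fun a k => (hw a k).elim
        (fun q => q ▸ okR ls (T4 ▸ U.sur.rg) ((U.pt.rd 0 (by omega)).mono le_rfl (by simp only [tE]; omega))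
          (T4 ▸ U.rdN)) fun q => by
          have := E0.wall (l := .sS 0) q
          exact ⟨this.1, this.2.1, this.2.2.1, by omega, this.2.2.2.2⟩) far (fun b k => .inr (A.fz b k))
        (by simp [fE0, ls]), fun z => E0.hd hβ (A.cell p hp).2.2.rt⟩⟩
  have pR : ¬(Bs.rA x (t - 2)).pin := id
  have hH := hd (β := {wH t}) (by simp) (by simp) (by simp)
  have h1 := hd (β := {w1 x t}) (by simp) (by simp) (by simp)
  have h2 := hd (β := {w2 t}) (by simp) (by simp) (by simp)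
  have X' := X.frz (s := t - 7) (by show F.w.l ≤ _; omega) (by show _ < F.w.r; omega) (by simp [fE0, ls])
    (by omega)
  have g : D.Gap (fE D.k F x t).w (gE o x t n) (x + 2) (t - 7) := ⟨by show F.w.l < _; omega,
    by show _ < F.w.r; omega, _, ⟨o - 1, by show 2 * o - 1 = _; ring⟩,
    (U.pt.rd 1 (by omega)).mono le_rfl (by simp only [tE]; omega)⟩
  have cut : (fE D.k F x t).Cut (t - 7) := ⟨mem_insert_self _ _, by
    obtain ⟨μ, -, r⟩ := g.rd
    exact (congrArg (·.r.2.2) (r _ (by omega) le_rfl).1).trans_ne two_ne_zero⟩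
  have C := A.clJ X hH h2 trivial trivial
  have mem : ∀ q ∈ (cE o x t c).support, ∃ a, (a = wH t ∨ a = w2 t) ∧ q ∈ (K (gE o x t) {a} c).support :=
    fun q k => (mem_add k).elim (fun k => ⟨_, .inl rfl, k⟩) fun k => ⟨_, .inr rfl, k⟩
  have N : St D (fE D.k F x t) (x + 2) (t - 7) (d + 1) (cE o x t c) := by
    refine ⟨A.grow X'.ok cut (by omega) (fun a k => (mem_insert.1 k).elim (fun e => e ▸ le_rfl) fun k => by
      have := A.fz a k; omega) (by simp [fE, frz, fE0, ls]) ⟨C.mem, C.sym⟩ C.bd fun q k => ?_, ⟨_, O.2, g⟩,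
      fun q k => ?_⟩ <;> obtain ⟨a, ha, k⟩ := mem q k
    · have b : t - 7 < a.lo ∧ a.hi < t := by rcases ha with rfl | rfl <;> simp only [wH, w2, Bs.lo, Bs.hi] <;> omega
      refine ⟨_, a, k, X', b.1, b.2, fun p hp => ?_⟩
      have L : En D.k (fE D.k F x t) _ o x t := E _ (subset_insert _ _)
      have W := L.wall (a := a) (l := .sS 0) (by tauto)
      rw [e p hp]
      exact ⟨to_of (l := .sS 0) (s := t - 7) (y := t) (by simpa using ⟨W.1, W.2.1, W.2.2.1, b.1, W.2.2.2.2⟩)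
        (by simp) (fun b k => (mem_insert.1 k).imp (fun e => e ▸ le_rfl) (A.fz b)) (by simp [L.ls]),
        fun z σ hz => L.win hz cut ha⟩
    · obtain ⟨p, hp, rfl⟩ := mem_K k
      exact e p hp ▸ g
  refine ⟨N, ?_⟩
  have n1 : wH t ≠ w1 x t := nofun
  have b1 := bd_K2 (g := gE o x t) A.bd n1 (A.nm (hH.1 _ (mem_singleton_self _)).le)
    (A.nm (h1.1 _ (mem_singleton_self _)).le)
  have C1 := A.clJ X hH h1 trivial trivial
  have z1 := H.stk _ (d + 1) (K (gE o x t) {wH t, w1 x t} c) X.ok (by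
    have := A.sfK X (β := {wH t, w1 x t}) (by
      simpa using ⟨⟨trivial, hH.1 _ (mem_singleton_self _)⟩, trivial, h1.1 _ (mem_singleton_self _)⟩)
    rwa [card_pair n1] at this) (A.gcK X (hd (by simp) (St.far2 (by simp only [wH, w1, Bs.lo, Bs.hi]; omega))
      (by simp))) (b1 ▸ C1)
  have z2 := A.rf A.xt H (s := x) (t := t - 2) (h := gE o x t) X rfl (T4 ▸ U.sur) rfl rfl (fun _ => .inl) (by omega)
    (fun j a b => (rd j a.le (by omega)).1.trans (congrArg (Sl.rod ·.r) (rd x le_rfl (by omega)).1).symm)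
    (ls ▸ T4 ▸ put_chg (t := tE x t) (N := 3)) (A.hd_nil A.xt (by simp [ls]) (by simpa using ⟨pR, by show t - 2 < t; omega⟩)
      fun p hp => e p hp ▸ to_of (l := .sS 0) (s := x - 1) (y := t) (by
        simpa only [mem_singleton, forall_eq, id] using okR ls (T4 ▸ U.sur.rg') (rd.mono le_rfl (by omega))
          (rd.mono (by omega) (by omega))) (by simp) (fun b k => .inr (A.fz b k)) (by simp [ls]))
    (fun p hp => by
      rw [e p hp, fE0, ls, ← T4]
      exact U.rs A.ok.w F.fz (M := 1) rfl (fun _ k => if k = 1 then 1 else 0) 0 (by simp)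
        (by norm_num [sum_Ioc_succ_top, vE, lb, Nm96.rho, dt, Subsingleton.elim _ (0 : Fin 1)])
        (by norm_num [sum_Ioc_succ_top, vE, mE, lb, Nm96.rho, dt, Subsingleton.elim _ (0 : Fin 1)]; ring)
        (b := 0) (b' := -1) (k0 := 0) (k1 := 2) (k0' := 1) (k1' := 3) (by simp only [tE]; omega)
        (by simp only [tE]; omega) le_rfl (by omega) (by simp only [tE]; omega) (by simp only [tE]; omega) le_rfl
        (by omega) (by decide) (by decide) (by decide))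
    (hd (by simp [pR]) (St.far2 (by simp only [w1, Bs.lo, Bs.hi, Bs.arc, and_true]; omega)) (by simp))
    (hd (by simp [pR]) (St.far2 (by simp only [w2, Bs.lo, Bs.hi, Bs.arc, and_true]; omega)) (by simp))
    h1 h2 trivial trivial
  rw [b1] at z1
  rw [mp_id] at z2
  rw [fE, cE, H.frz1 C N.cl, ← z2, ← zero_add (T.Z _ _ (K _ {w1 x t} c + _)), ← z1,
    ← H.add _ _ _ _ C1 (A.clJ X h1 h2 trivial trivial), add_assoc, ← add_assoc (K _ {w1 x t} c), add_self, zero_add]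

/-! ### the walk -/

variable (D : Dt Γ P.Λ)

/-- the frames of the walk -/
def fW (F : Fm Γ) (x y : ℤ) : ℕ → Fm Γ
  | 0 => F
  | k + 1 => fNx D (fW F x y k) (x + 8 * k) (y - 9 * k)

/-- the chains of the walk -/
def cW (c : Cn) (x y : ℤ) : ℕ → Cn
  | 0 => c
  | k + 1 => cNx (x + 8 * k) (y - 9 * k) (cW c x y k)

variable {D}

/-- **the walk** -/
theorem St.walk {y : ℤ} (S : St D F x y d c) (H : Ax0 P T) (hk : P.kL = D.k) (iv : P.iv D.F D.G) (k : ℕ)
    (h : x + 17 * k ≤ y) : St D (fW D F x y k) (x + 8 * k) (y - 9 * k) (d + k) (cW c x y k) ∧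
      T.Z (fW D F x y k) (d + k) (cW c x y k) = T.Z F d c := by
  induction k with
  | zero => simpa [fW, cW] using S
  | succ k ih =>
    obtain ⟨a, b⟩ := ih (by push_cast at h; omega)
    have h' : x + 8 * k + 17 ≤ y - 9 * k := by push_cast at h; omega
    refine ⟨?_, (a.z_nx h' H hk iv).trans b⟩
    have := a.nx h' hk
    rwa [show x + 8 * (k : ℤ) + 8 = x + 8 * (k + 1 : ℕ) by push_cast; ring,
      show y - 9 * (k : ℤ) - 9 = y - 9 * (k + 1 : ℕ) by push_cast; ring] at this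

end Crest.Agent.X212.Two48
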