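import Crest.Agent.X212.Two48.Defs

/-!
# Row 212, layer G (helper48): the windows of a turn of the case `p = 2`
-/

set_option autoImplicit false
set_option linter.unusedSimpArgs false
set_option linter.unusedTactic false
set_option linter.unreachableTactic false
noncomputable section

namespace Crest.Agent.X212.Two48

open Crest.Agent.X212.Rod53 Crest.Agent.X212.Wd38 Crest.Agent.X212.Nm96 Finset

variable {Γ : Nm} {κ : Γ.ι} {F : Fm Γ} {n : Wt} {τ x y z : ℤ} {σ B : Finset Bs}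

/-- a frame with a turn on `x, …, y` -/
structure Lt (κ : Γ.ι) (F : Fm Γ) (n : Wt) (τ x y : ℤ) : Prop where
  pt : Pt F.w n κ (tL x y) vL (mL τ) 6
  hi : y ≤ F.w.r
  dt0 : ∀ c, y - 3 ≤ c → c ≤ y → dt (F.w.lf c) (F.w.rt c) = 0
  tau : τ = 0 ∨ τ = 1
  le : x + 17 ≤ y
  ls : ∀ l ∈ F.ls, l = wl y ∨ y < l.lo
  lm : wl y ∈ F.ls
  cut : F.Cut y

/-- left feet -/
def iL (x : ℤ) (a : Bs) : ℕ := if a.lo = x + 3 then 0 else if a.lo = x + 4 then 1 else 2

/-- right feet -/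
def jL (y : ℤ) (a : Bs) : ℕ := if a.hi = y - 4 then 6 else 5

/-- charges -/
def chL (x : ℤ) (a : Bs) (s : Bool) : ℤ :=
  if a.arc then (if s then -2 else if a.lo = x + 4 then 2 else 4) else 1

theorem sz_chL (a : Bs) : Sz a (chL x a) := by
  unfold Sz chL
  split_ifs <;> simp_all

/-- the sets of broken walls -/
def Al (x y τ : ℤ) (B : Finset Bs) : Prop := B = ∅ ∨ B = {wa y} ∨ B = {wd x y} ∨
  (τ = 0 ∧ (B = {we x y} ∨ B = {wa y, we x y} ∨ B = {we x y, wd x y})) ∨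
  (τ = 1 ∧ (B = {wc x y} ∨ B = {wa y, wc x y}))

theorem sx0 {i j : Bs → ℕ} {η : Bs → Bool} {φ : Z2 → Z2 → ℤ → ℤ → ℝ} {p : ℕ → ℤ} :
    sx (tL x y) vL 0 6 i j B η φ p = (if InV B η (x + 4) then φ (1, -2) (1, -1) (p 0) (p 1) else 0) +
      (if InV B η (x + 5) then φ (1, -1) (1, 0) (p 1) (p 2) else 0) +
      (if InV B η (x + 7) then φ (1, 0) (1, 1) (p 2) (p 3) else 0) +
      (if InV B η (x + 8) then φ (1, 1) (1, 2) (p 3) (p 4) else 0) +
      (if InV B η (y - 7) then φ (1, 2) (0, 1) (p 4) (p 5) else 0) +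
      (if InV B η (y - 5) then φ (0, 1) (-1, 2) (p 5) (p 6) else 0) +
      ∑ a ∈ B, if a.arc ∧ Adj B η a then
        (if η a then 1 else -1) * φ (vL (i a)) (vL (j a)) (p (i a)) (p (j a)) else 0 := by
  simp only [sx, sum_Ioc_succ_top (Nat.zero_le _), Ioc_self, sum_empty, zero_add]
  rfl

theorem sx4 {i j : Bs → ℕ} {η : Bs → Bool} {φ : Z2 → Z2 → ℤ → ℤ → ℝ} {p : ℕ → ℤ} :
    sx (tL x y) vL 4 6 i j B η φ p = (if InV B η (y - 7) then φ (1, 2) (0, 1) (p 4) (p 5) else 0) +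
      (if InV B η (y - 5) then φ (0, 1) (-1, 2) (p 5) (p 6) else 0) +
      ∑ a ∈ B, if a.arc ∧ Adj B η a then
        (if η a then 1 else -1) * φ (vL (i a)) (vL (j a)) (p (i a)) (p (j a)) else 0 := by
  rw [sx, sum_Ioc_succ_top (by omega), sum_Ioc_succ_top le_rfl, Ioc_self, sum_empty, zero_add]
  rfl

theorem sd_s {b : Bool} {c : ℤ} : (Bs.sS x).side c = b ↔ if b then x < c else c ≤ x := by
  cases b <;> simp [Bs.side]

theorem sd_a {b : Bool} {c : ℤ} : (Bs.sA x y).side c = b ↔ if b then c ≤ x ∨ y < c else x < c ∧ c ≤ y := by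
  cases b <;> simp [Bs.side]

theorem ij_e : iL x (.sA (x + 6) y) = 2 := by simp [iL, Bs.lo]
theorem ij_c : iL x (.sA (x + 3) y) = 0 := by simp [iL, Bs.lo]
theorem ij_d : iL x (.sA (x + 4) y) = 1 := by simp [iL, Bs.lo]
theorem ij_7 : jL y (.sA x (y - 7)) = 5 := by simp [jL, Bs.hi]
theorem ij_4 : jL y (.sA x (y - 4)) = 6 := by simp [jL, Bs.hi]

theorem far_iff {a b : Bs} : a.Far b ↔ a.hi < b.lo ∨ b.hi < a.lo ∨ (a.arc ∧ a.lo < b.lo ∧ b.hi < a.hi ∧ b.arc) ∨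
    (b.arc ∧ b.lo < a.lo ∧ a.hi < b.hi ∧ a.arc) := Iff.rfl

/-- sides of walls at points -/
macro "sd_ev" : tactic => `(tactic| (
  simp only [dp, ex, InV, mem_insert, mem_singleton, forall_eq_or_imp, forall_eq, sd_s, sd_a, far_iff,
    sum_empty, sum_singleton, true_and, false_and, and_true, and_false, if_true, if_false, adj_one, ij_e, ij_c,
    ij_d, ij_7, ij_4, chL, Bool.false_eq_true, or_false, false_or, notMem_empty, false_imp_iff, implies_true,
    Bs.lo, Bs.hi, Bs.arc, *]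
  try simp (disch := omega) only [if_pos, if_neg]))

/-- local numbers -/
macro "nu_ev" : tactic => `(tactic| norm_num [vL, mL, al, om, Nm96.lp, lg, nn, lq, lb, Nm96.rho, dt,
  show Int.sign 2 = 1 from rfl])

theorem Lt.wn_ls (h : Lt κ F n τ x y) {s : ℤ} (hs : s ≤ y - 8) : wn s y F.ls = {wl y} :=
  Finset.ext fun l => by
    rw [mem_wn, mem_singleton]
    exact ⟨fun k => (h.ls l k.1).resolve_right (by omega), fun k => k ▸ ⟨h.lm, hs, by show y - 8 < y; omega⟩⟩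

theorem sq_ge (a τ : ℤ) (t : τ = 0 ∨ τ = 1) (h : (a - τ) % 2 = 0) : (τ : ℝ) ≤ (a : ℝ) ^ 2 := by
  rcases t with rfl | rfl
  · simpa using sq_nonneg (a : ℝ)
  · simpa using odd_sq a (by omega)

theorem fac4 {p : ℕ → ℤ} {k₀ : ℕ} (hk : k₀ ≤ 4)
    (par : ∀ k ≤ 6, k₀ ≤ k → (p k - mL τ k - (vL k).1 * (vL k).2) % 2 = 0) :
    1 ≤ ((p 4 : ℝ) - 2 * p 5) ^ 2 ∧ 1 ≤ (2 * (p 5 : ℝ) - p 6) ^ 2 := by
  have := par 4 (by omega) hk; have := par 6 le_rfl (by omega)
  simp only [mL, vL] at *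
  exact ⟨by exact_mod_cast odd_sq (p 4 - 2 * p 5) (by omega), by exact_mod_cast odd_sq (2 * p 5 - p 6) (by omega)⟩

theorem fac0 {p : ℕ → ℤ} (t : τ = 0 ∨ τ = 1)
    (par : ∀ k ≤ 6, 0 ≤ k → (p k - mL τ k - (vL k).1 * (vL k).2) % 2 = 0) :
    (τ : ℝ) ≤ ((p 0 : ℝ) - p 1 + p 5) ^ 2 ∧ (τ : ℝ) ≤ ((p 1 : ℝ) - p 2 + p 5) ^ 2 ∧
      1 - (τ : ℝ) ≤ ((p 2 : ℝ) - p 3 + p 5) ^ 2 ∧ 1 - (τ : ℝ) ≤ ((p 3 : ℝ) - p 4 + p 5) ^ 2 ∧
      (τ : ℝ) ≤ ((p 1 : ℝ) + p 6 - p 5) ^ 2 := by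
  have := par 0 (by omega) le_rfl; have := par 1 (by omega) (by omega); have := par 2 (by omega) (by omega)
  have := par 3 (by omega) (by omega); have := par 4 (by omega) (by omega)
  have := par 5 (by omega) (by omega); have := par 6 (by omega) (by omega)
  simp only [mL, vL] at *
  exact ⟨by exact_mod_cast sq_ge (p 0 - p 1 + p 5) τ t (by omega),
    by exact_mod_cast sq_ge (p 1 - p 2 + p 5) τ t (by omega),
    by exact_mod_cast sq_ge (p 2 - p 3 + p 5) (1 - τ) (by omega) (by omega),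
    by exact_mod_cast sq_ge (p 3 - p 4 + p 5) (1 - τ) (by omega) (by omega),
    by exact_mod_cast sq_ge (p 1 + p 6 - p 5) τ t (by omega)⟩

/-- the end of a case -/
macro "pc_end" t:term : tactic => `(tactic| (
  intro i
  first
  | omega
  | refine ⟨by nu_ev, fun p par q => ?_⟩
    obtain ⟨a1, a2, a3, a4, a5⟩ := fac0 $t par
    obtain ⟨a6, a7⟩ := fac4 (Nat.zero_le _) par
    clear par q
    push_cast at *
    nu_ev <;> linarith))

theorem Lt.pl (h : Lt κ F n τ x y) (hB : Al x y τ B) (η : Bs → Bool) (i : ¬InV B η (x + 2 + 1)) :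
    Pl F n σ B (chL x) (x + 2) y 0 (5 / 2, 1) η := by
  have := h.le
  have hp : ∀ a ∈ B, a.pin := by
    rcases hB with rfl | rfl | rfl | ⟨-, rfl | rfl | rfl⟩ | ⟨-, rfl | rfl⟩ <;> simp [wa, wc, wd, we, Bs.pin]
  have hl : Adj B η (wl y) ↔ InV B η (y - 8 + 1) := adj_np hp id
  refine pl_of h.pt (iL x) (jL y) (k₀ := 0) (U := ∅) le_rfl (by simp only [tL]; omega) (by omega)
    (by simp only [tL]; omega) (by omega) h.hi (fun c a => h.dt0 c (by simpa [tL] using a)) ?_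
    (h.wn_ls (by omega)) (empty_subset _) ?_
  · rcases hB with rfl | rfl | rfl | ⟨-, rfl | rfl | rfl⟩ | ⟨-, rfl | rfl⟩ <;>
      simp only [wa, wc, wd, we, Ft, ij_e, ij_c, ij_d, ij_7, ij_4, Bs.lo, Bs.hi, Bs.arc, mem_insert,
        mem_singleton, forall_eq_or_imp, forall_eq, notMem_empty, false_imp_iff, implies_true, true_imp_iff, tL,
        and_true] <;> omega
  have t := h.tau
  clear hp h
  simp only [sx0, ex, sum_singleton, hl]
  clear hl
  rcases hB with rfl | rfl | rfl | ⟨rfl, rfl | rfl | rfl⟩ | ⟨rfl, rfl | rfl⟩ <;>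
    simp only [wa, wc, wd, we, wl] at *
  · simp [InV] at i
  · cases ha : η (.sS (y - 6)) <;> revert i <;> sd_ev <;> rcases t with rfl | rfl <;> pc_end (by omega)
  · cases ha : η (.sA (x + 4) (y - 4)) <;> revert i <;> sd_ev <;> rcases t with rfl | rfl <;> pc_end (by omega)
  · cases ha : η (.sA (x + 6) (y - 7)) <;> revert i <;> sd_ev <;> pc_end (by omega)
  · simp only [sum_pair (show Bs.sS (y - 6) ≠ .sA (x + 6) (y - 7) from nofun),
      adj_l (show Bs.sS (y - 6) ≠ .sA (x + 6) (y - 7) from nofun),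
      adj_r (show Bs.sS (y - 6) ≠ .sA (x + 6) (y - 7) from nofun)]
    cases ha : η (.sS (y - 6)) <;> cases hb : η (.sA (x + 6) (y - 7)) <;> revert i <;> sd_ev <;>
      pc_end (by omega)
  · have e : Bs.sA (x + 6) (y - 7) ≠ .sA (x + 4) (y - 4) := by simp
    simp only [sum_pair e, adj_l e, adj_r e]
    cases ha : η (.sA (x + 4) (y - 4)) <;> cases hb : η (.sA (x + 6) (y - 7)) <;> revert i <;> sd_ev <;>
      pc_end (by omega)
  · cases ha : η (.sA (x + 3) (y - 7)) <;> revert i <;> sd_ev <;> pc_end (by omega)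
  · simp only [sum_pair (show Bs.sS (y - 6) ≠ .sA (x + 3) (y - 7) from nofun),
      adj_l (show Bs.sS (y - 6) ≠ .sA (x + 3) (y - 7) from nofun),
      adj_r (show Bs.sS (y - 6) ≠ .sA (x + 3) (y - 7) from nofun)]
    cases ha : η (.sS (y - 6)) <;> cases hb : η (.sA (x + 3) (y - 7)) <;> revert i <;> sd_ev <;>
      pc_end (by omega)

theorem Lt.cg (h : Lt κ F n τ x y) (hB : Al x y τ B) {s : ℤ} (hs : s ≤ y - 8) : Cg F B (chL x) s y := by
  refine ⟨?_, fun a _ => sz_chL a⟩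
  have := h.le
  rw [h.wn_ls hs, filter_singleton]
  have e : we x y ≠ wd x y := by simp [we, wd]
  rcases hB with rfl | rfl | rfl | ⟨-, rfl | rfl | rfl⟩ | ⟨-, rfl | rfl⟩
  · simp
  all_goals
    simp only [sum_singleton, sum_pair e, sum_pair (show wa y ≠ we x y from nofun),
      sum_pair (show wa y ≠ wc x y from nofun)]
    split_ifs with q <;> simp [chL, wa, wc, wd, we, wl, Bs.arc, Bs.lo, Bs.hi, Bs.Far] at q ⊢
  omega

/-- **the head up to the right end of the turn** -/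
theorem Lt.head (h : Lt κ F n τ x y) (hz : y ≤ z) (h0 : ∀ a ∈ σ, a.pin → x + 2 < a.lo)
    (hB : ∀ B ⊆ wn (x + 2) y σ, (∀ a ∈ B, a.pin) → Al x y τ B) :
    ∃ v, F.Win z 0 n σ (F.w.l - 1) y v (5 / 2, 1) := by
  have := h.le
  exact head_of (s := x + 2) h.cut hz h.pt.lo.le (by omega) h0 (fun l k => (h.ls l k).elim (fun e => e ▸ by
    show _ ≤ y - 8; omega) (by omega)) fun B k k' => ⟨chL x, h.cg (hB B k k') (by omega), h.pl (hB B k k')⟩

/-- **the window of a letter**, without cuts -/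
theorem Lt.win0 (h : Lt κ F n τ x y) (hz : y ≤ z) {a : Bs} (ha : a = wa y ∨ a = wl y)
    (hσ : wn (y - 9) y σ = {a}) {q : ℝ} (q1 : 3 / 4 ≤ q) (q2 : q ≤ 9 / 4) :
    Fm.Win ⟨F.w, ∅, F.ls⟩ z 0 n σ (y - 9) y (q, 0) (q + 1 / 4, 1) := by
  have := h.le
  intro B k hp
  have hB : B = ∅ ∨ B = {wa y} := (subset_singleton_iff.1 (hσ ▸ k)).imp_right fun e =>
    ha.elim (· ▸ e) fun e' => False.elim (hp (wl y) (by rw [e, e']; exact mem_singleton_self _))
  have cg := h.cg (hB.imp_right .inl) (s := y - 9) (by omega)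
  refine ⟨chL x, cg.1, cg.2, fun η => ?_⟩
  have hl : Adj B η (wl y) ↔ InV B η (y - 8 + 1) := adj_np hp id
  refine pc_of (F := ⟨F.w, ∅, F.ls⟩) h.pt (iL x) (jL y) (k₀ := 4) (U := {a} \ B) (by simp only [tL]; omega)
    (by simp only [tL]; omega) (by omega) (by simp only [tL]; omega) (by omega) h.hi
    (fun c a => h.dt0 c (by simpa [tL] using a)) ?_ (h.wn_ls (by omega)) (fun b q => ?_) hz ?_
  · rcases hB with rfl | rfl <;> simp [Ft, wa, Bs.lo, Bs.arc]
    omega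
  · rw [← hσ] at q
    simp only [mem_wn, mem_sdiff] at q ⊢
    tauto
  have t := h.tau
  have hU : ∀ μ : ℝ, (∑ b ∈ {a} \ B, if Adj B η b then μ else 0) = if B = ∅ then μ else 0 := fun μ => by
    rcases hB with rfl | rfl
    · simp [Adj, InV]
    · rw [hσ, singleton_subset_iff, mem_singleton] at k
      simp [← k]
  clear hp h k cg
  simp only [sx4, ex, sum_singleton, hl, hU]
  clear hl hU
  rcases hB with rfl | rfl <;> simp only [wa, wl, singleton_ne_empty]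
  on_goal 2 => cases hb : η (.sS (y - 6))
  all_goals
    sd_ev
    rcases t with rfl | rfl <;> refine ⟨by nu_ev <;> linarith, fun p par => ?_⟩ <;>
      obtain ⟨a6, a7⟩ := fac4 le_rfl par <;> nu_ev <;> linarith

theorem win_nf {s t : ℤ} {v v' : ℝ × ℝ} (h : Fm.Win ⟨F.w, ∅, F.ls⟩ z 0 n σ s t v v')
    (hσ : ∀ a ∈ wn s t σ, s ≤ a.hi ∧ a.hi ≤ t) : F.Win z 0 n σ s t v v' :=
  h.congr ⟨rfl, rfl, fun _ _ _ => rfl, fun _ _ _ => rfl, fun _ _ _ => rfl, rfl, fun _ _ _ k => by simp at k⟩ rfl hσ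

/-- **the window of a letter** -/
theorem Lt.win (h : Lt κ F n τ x y) (hz : y ≤ z) {a : Bs} (ha : a = wa y ∨ a = wl y)
    (hσ : wn (y - 9) y σ = {a}) : F.Win z 0 n σ (y - 9) y (5 / 2, 1) (5 / 2, 1) :=
  win_nf ((h.win0 hz ha hσ (q := 9 / 4) (by norm_num) le_rfl).mono (by norm_num [Prod.le_def])
    (by norm_num [Prod.le_def])) (by
      rcases ha with rfl | rfl <;> simp only [hσ, mem_singleton, forall_eq, wa, wl, Bs.hi] <;> omega)

end Crest.Agent.X212.Two48
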