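import Crest.Agent.X212.Two48.Cn

/-!
# Row 212, layer G (helper48): chains with a certified tail (lens walls allowed), changes left of the tail
-/

set_option autoImplicit false
noncomputable section

namespace Crest.Agent.X212.Two48

open Crest.Agent.X212.Rod53 Crest.Agent.X212.Wd38 Crest.Agent.X212.Nm96 Finset Cn

variable {Γ : Nm} {P : Pm Γ} {F G : Fm Γ} {l a b : Bs} {n : Wt} {c c' : Cn} {g g' : Wt → Wt} {d : ℕ}
  {y z : ℤ} {β σ : Finset Bs} {v : ℝ × ℝ} {p : Wt × Finset Wl}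

variable (P F) in
/-- everything happens right of the cut `y` -/
structure Sb (y : ℤ) (v : ℝ × ℝ) (d : ℕ) (c : Cn) : Prop where
  ok : F.OK P
  cut : F.Cut y
  fz : ∀ a ∈ F.fz, y ≤ a.lo
  ls : ∀ l ∈ F.ls, y < l.lo
  sf : F.Sf d c
  bd : c.bd = 0
  cell : ∀ p ∈ c.support, (∀ a ∈ p.2, a.tw = []) ∧ F.LOK P p.1 ∧ Tl P F y v p.1 (p.2.image Wl.b)

variable (P F G) in
/-- a change left of `y` -/
structure Xt (y : ℤ) (c : Cn) (g : Wt → Wt) : Prop where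
  ok : G.OK P
  l : G.w.l = F.w.l
  r : G.w.r = F.w.r
  aq : ∀ n, Aq F.w G.w n (g n) (y ≤ ·)
  fz : F.fz ⊆ G.fz
  fz' : ∀ b ∈ G.fz, b ∈ F.fz ∨ b.hi ≤ y
  ls : F.ls ⊆ G.ls
  ls' : ∀ l ∈ G.ls, l ∈ F.ls ∨ l.hi + 1 < y
  fl : ∀ l ∈ F.ls, ∀ n, g (fl l n) = fl l (g n)
  lok : ∀ p ∈ c.support, G.LOK P (g p.1)

variable (G) in
/-- certified walls left of `y` -/
def Hd (y : ℤ) (v : ℝ × ℝ) (c : Cn) (g : Wt → Wt) (β : Finset Bs) : Prop := (∀ a ∈ β, a.hi < y) ∧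
  ∀ p ∈ c.support, To G (g p.1) β ∧ ∀ z, y ≤ z → ∃ x, G.Win z 0 (g p.1) (β ∪ p.2.image Wl.b) (G.w.l - 1) y x v

theorem not_pin (ok : F.OK P) (h : l ∈ F.ls) : ¬l.pin := by
  obtain ⟨x, rfl, -⟩ := ok.ls l h
  exact id

theorem cl_add (h : F.Cl P d c) (h' : F.Cl P d c') : F.Cl P d (c + c') :=
  ⟨sf_add h.toSf h'.toSf, by rw [bd_add, h.bd, h'.bd, add_zero], fun p k => (mem_add k).elim (h.gd p) (h'.gd p)⟩

theorem head_nil (ht : F.Cut y) (hl : F.w.l ≤ y) (hz : y ≤ z) (h0 : ∀ a ∈ σ, a.pin → y < a.lo)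
    (h1 : ∀ l ∈ F.ls, y ≤ l.lo) : ∃ x, F.Win z 0 n σ (F.w.l - 1) y x v :=
  head_of ht hz hl le_rfl h0 h1 fun B k _ => by
    obtain rfl : B = ∅ := eq_empty_of_forall_notMem fun a q => by have := mem_wn.1 (k q); omega
    exact ⟨fun _ _ => 0, ⟨by simp, by simp⟩, fun η i => (i (by simp [InV])).elim⟩

namespace Sb

variable (S : Sb P F y v d c)
include S

theorem rt (hp : p ∈ c.support) {a : Wl} (ha : a ∈ p.2) : y < a.b.lo ∧ a.b.lo ≤ a.b.hi :=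
  have T := (S.cell p hp).2.2
  ⟨T.rt _ (mem_image_of_mem _ ha), (wf_of_ok (T.ok _ (mem_image_of_mem _ ha)).1).1.1⟩

theorem nm (h : a.hi ≤ y) : ∀ p ∈ c.support, ↑a ∉ p.2 := fun p hp k => by
  have := S.rt hp k; simp only at this; omega

theorem xt : Xt P F F y c id :=
  ⟨S.ok, rfl, rfl, fun _ _ _ => ⟨rfl, rfl, rfl⟩, Subset.rfl, fun _ => .inl, Subset.rfl, fun _ => .inl,
    fun _ _ _ => rfl, fun p k => (S.cell p k).2.1⟩

variable (X : Xt P F G y c g)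
include X

theorem cutX : G.Cut y := ⟨X.fz S.cut.1, (X.aq Wt.o y le_rfl).1 ▸ S.cut.2⟩

theorem tl (hp : p ∈ c.support) : Tl P G y v (g p.1) (p.2.image Wl.b) :=
  (S.cell p hp).2.2.tr ⟨X.l, X.r, fun j a _ => (X.aq p.1 j a).1, fun j a _ => (X.aq p.1 j a).2.1,
    fun j a _ => (X.aq p.1 j a).2.2, Finset.ext fun l => by
      simp only [mem_wn]
      exact and_congr_left fun q => ⟨fun k => (X.ls' l k).resolve_right fun r => by
        have := ls_bd X.ok k; omega, fun k => X.ls k⟩, fun _ _ _ k => X.fz k⟩ X.fz'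
    fun l k => (X.ls' l k).imp_right fun r => by omega

theorem gc (h : Hd G y v c g β) (hp : p ∈ c.support) : G.GC P (g p.1) (p.2 ∪ β.image (↑)) :=
  gc_tor X.ok (X.lok p hp) (forall_mem_union.2 ⟨(S.cell p hp).1, by simp⟩)
    (image_K _ ▸ (S.tl X hp).tor X.ok (S.cutX X).1 (h.2 p hp).1 h.1 (h.2 p hp).2)

theorem gcK (h : Hd G y v c g β) : ∀ q ∈ (K g β c).support, G.GC P q.1 q.2 := fun q hq => by
  obtain ⟨p, hp, rfl⟩ := mem_K hq
  exact S.gc X h hp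

theorem hd_nil (h1 : ∀ l ∈ G.ls, y ≤ l.lo) (h : ∀ a ∈ β, ¬a.pin ∧ a.hi < y)
    (T : ∀ p ∈ c.support, To G (g p.1) β) : Hd G y v c g β :=
  ⟨fun a k => (h a k).2, fun p hp => ⟨T p hp, fun _ hz => head_nil (S.cutX X) (X.ok.fz _ (S.cutX X).1).1.1 hz
    (forall_mem_union.2 ⟨fun a k q => ((h a k).1 q).elim, fun a k _ => (S.tl X hp).rt a k⟩) h1⟩⟩

theorem memK (h : ∀ a ∈ β, (a.pin ∨ a ∈ G.ls) ∧ a.hi < y) : ∀ q ∈ (K g β c).support,
    q.2.card = d + #β ∧ ∀ a ∈ q.2, a.b.pin ∨ (a.b ∈ G.ls ∧ a.tw = []) := fun q hq => by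
  obtain ⟨p, hp, rfl⟩ := mem_K hq
  refine ⟨?_, forall_mem_union.2 ⟨fun a k => ((S.sf.mem p hp).2 a k).imp_right fun r => ⟨X.ls r.1, r.2⟩,
    forall_mem_image.2 fun a k => (h a k).1.imp_right fun r => ⟨r, rfl⟩⟩⟩
  rw [card_union_of_disjoint (disjoint_right.2 (forall_mem_image.2 fun a k => S.nm (h a k).2.le p hp)),
    (S.sf.mem p hp).1, card_image_of_injective _ fun a b e => congrArg Wl.b e]

theorem syK (h : ∀ a ∈ β, a.hi < y) (hl : l ∈ F.ls) : Sy l (K g β c) :=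
  Sy.mp (S.sf.sym l hl) (X.fl l hl) fun k => by
    obtain ⟨a, ha, e⟩ := mem_image.1 k
    obtain rfl : a = l := congrArg Wl.b e
    have := h a ha; have := S.ls a hl; have := ls_bd S.ok hl; omega

theorem sfK (h : ∀ a ∈ β, a.pin ∧ a.hi < y) : G.Sf (d + #β) (K g β c) :=
  ⟨S.memK X fun a k => ⟨.inl (h a k).1, (h a k).2⟩, fun l k => (X.ls' l k).elim (S.syK X fun a k => (h a k).2)
    fun r => sy_of fun q hq => by
      obtain ⟨p, hp, rfl⟩ := mem_K hq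
      refine fun i => (mem_union.1 i).elim (S.nm (by omega) p hp) fun i => ?_
      obtain ⟨a, ha, e⟩ := mem_image.1 i
      obtain rfl : a = l := congrArg Wl.b e
      exact not_pin X.ok k (h a ha).1⟩

theorem sfK2 (X' : Xt P F G y c g') (e : ∀ n, g' n = fl l (g n)) (hl : G.ls ⊆ insert l F.ls)
    (h : ∀ a ∈ β, (a.pin ∨ a ∈ G.ls) ∧ a.hi < y) : G.Sf (d + #β) (K g β c + K g' β c) :=
  ⟨fun q k => (mem_add k).elim (S.memK X h q) (S.memK X' h q), fun l' k => (mem_insert.1 (hl k)).elim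
    (fun r => by
      have : K g' β c = (K g β c).mp (fl l) id ∅ := by
        rw [K, K, mp_mp, image_id, union_empty, funext e]; rfl
      rw [this, r]; exact sy_swap _)
    fun r => (S.syK X (fun a k => (h a k).2) r).add (S.syK X' (fun a k => (h a k).2) r)⟩

theorem cl0 (h1 : ∀ l ∈ G.ls, y ≤ l.lo) : G.Cl P d (c.mp g id ∅) := by
  have e : G.Sf (d + #(∅ : Finset Bs)) (K g ∅ c) := S.sfK X (by simp)
  have e' := S.gcK X (S.hd_nil X h1 (β := ∅) (by simp) fun _ _ => ⟨by simp, by simp, by simp, by simp⟩)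
  rw [card_empty, add_zero] at e
  rw [K_nil] at e e'
  exact ⟨e, by rw [bd_mp, S.bd, mp_zero], e'⟩

theorem clJ (ha : Hd G y v c g {a}) (hb : Hd G y v c g {b}) (pa : a.pin) (pb : b.pin) :
    G.Cl P (d + 1) (K g {a} c + K g {b} c) :=
  have a1 := ha.1 a (mem_singleton_self _)
  have b1 := hb.1 b (mem_singleton_self _)
  ⟨sf_add (S.sfK X (β := {a}) (by simpa using ⟨pa, a1⟩)) (S.sfK X (β := {b}) (by simpa using ⟨pb, b1⟩)),
    by rw [bd_add, bd_K1 S.bd (S.nm a1.le), bd_K1 S.bd (S.nm b1.le), add_self],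
    fun q k => (mem_add k).elim (S.gcK X ha q) (S.gcK X hb q)⟩

omit X in
theorem cl : F.Cl P d c := mp_id c ▸ S.cl0 S.xt fun l k => (S.ls l k).le

/-- **a turn** -/
theorem rf {T : WTh Γ} (H : Ax0 P T) {G' : Fm Γ} {h : Wt → Wt} {s t : ℤ} (X' : Xt P F G' y c g') (e0 : g' = h ∘ g)
    (sur : G'.w.Sur G.w s t) (e1 : G.fz = G'.fz) (e2 : G.ls = F.ls)
    (e3 : ∀ l ∈ G'.ls, l ∈ F.ls ∨ (s < l.lo ∧ l.hi < t))
    (ht : t < y) (rod : ∀ j, s < j → j ≤ t → G.w.s j = .rod (G.w.s s).r) (chg : Chg F.ls 0 s t h)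
    (R : Hd G y v c g {.rA s t}) (rs : ∀ p ∈ c.support, G'.RS (g' p.1) s t a b)
    (Ra : Hd G' y v c g' {.rA s t, a}) (Rb : Hd G' y v c g' {.rA s t, b})
    (ha : Hd G' y v c g' {a}) (hb : Hd G' y v c g' {b}) (pa : a.pin) (pb : b.pin) :
    T.Z G' (d + 1) (K g' {a} c + K g' {b} c) = T.Z G d (c.mp g id ∅) := by
  subst e0
  have e : ∀ a : Bs, K (h ∘ g) {a} c = (c.mp g id ∅).mp h id {↑a} := fun a => by
    rw [mp_mp, image_empty, empty_union]; rfl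
  have C := S.clJ X' ha hb pa pb
  rw [e, e] at C ⊢
  refine H.rf G G' s t a b h d _ sur e1.symm (Finset.ext fun l => ?_) rod (e2 ▸ chg) (fun w hw => ?_)
    (S.cl0 X fun l k => (S.ls l (e2 ▸ k)).le) (fun q hq => ?_) C
  · rw [mem_filter, e2]
    exact ⟨fun k => ⟨X'.ls k, by have := S.ls l k; have := ls_bd S.ok k; omega⟩,
      fun k => (e3 l k.1).resolve_right k.2⟩
  · obtain ⟨q, hq, k⟩ := mem_walls.1 hw
    obtain ⟨p, hp, rfl⟩ := mem_mp hq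
    simp only [image_id, union_empty] at k
    have := S.rt hp k
    exact ⟨⟨.inr (by omega), .inr (by omega), by simp [(S.cell p hp).1 w k]⟩, .inr (.inl (ht.trans this.1))⟩
  · obtain ⟨p, hp, rfl⟩ := mem_mp hq
    simp only [image_id, union_empty]
    exact ⟨by simpa using S.gc X R hp, rs p hp, by simpa using S.gc X' Ra hp, by simpa using S.gc X' Rb hp⟩

end Sb

end Crest.Agent.X212.Two48
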