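import Crest.Agent.X212.Two48.Sb

/-!
# Row 212, layer G (helper48): one step of the walk in the case `p = 2`
-/

set_option autoImplicit false
noncomputable section

namespace Crest.Agent.X212.Two48

open Crest.Agent.X212.Rod53 Crest.Agent.X212.Wd38 Crest.Agent.X212.Nm96 Finset Cn

variable {Γ : Nm} {P : Pm Γ} {F G : Fm Γ} {l a b : Bs} {n n' : Wt} {c : Cn} {g : Wt → Wt} {d : ℕ}
  {s x y z τ : ℤ} {β σ : Finset Bs} {v : ℝ × ℝ} {w : Shp Γ} {κ : Γ.ι}

/-! ### frames -/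

theorem Sb.okX (S : Sb P F y v d c) (hw : w.OK) (l : w.l = F.w.l) (r : w.r = F.w.r)
    (e : ∀ j, y ≤ j → w.s j = F.w.s j) : Fm.OK P { F with w := w } :=
  ⟨hw, fun a k => ⟨ok_congr (S.ok.fz a k).1 l r fun j q => e j ((S.fz a k).trans q), (S.ok.fz a k).2⟩,
    fun a k => by
      obtain ⟨u, rfl, a1, a2, a3⟩ := S.ok.ls a k
      have : y < u := S.ls _ k
      exact ⟨u, rfl, l ▸ a1, r ▸ a2, fun j p q => (e j (by omega)).trans (a3 j p q)⟩, S.ok.lf, S.ok.ll⟩

theorem Sb.lokX (S : Sb P F y v d c) (h : F.LOK P n) (o : n'.OK w P.Λ) (mL : n'.mL = n.mL) (mR : n'.mR = n.mR)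
    (e : Aq F.w w n n' (y ≤ ·)) : Fm.LOK P { F with w := w } n' :=
  ⟨o, mL.trans h.mL, mR.trans h.mR, fun l k => by
    have := S.ls l k; have := ls_bd S.ok k
    rw [(e _ (by omega)).2.1, (e _ (by omega)).2.1, (e _ (by omega)).2.1]
    exact h.ls l k⟩

theorem frz_ok' (ok : F.OK P) (h : F.w.l ≤ s) (h' : s < F.w.r) (hl : ∀ l ∈ F.ls, s < l.lo) : (frz F s).OK P :=
  ⟨ok.w, fun a k => (mem_insert.1 k).elim (fun e => e ▸ ⟨⟨h, h'⟩, s, rfl⟩) (ok.fz a), ok.ls,
    fun l k a q => (mem_insert.1 q).elim (fun e => e ▸ .inl (hl l k)) (ok.lf l k a), ok.ll⟩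

theorem Xt.frz (X : Xt P F G y c g) (h : G.w.l ≤ s) (h' : s < G.w.r) (hl : ∀ l ∈ G.ls, s < l.lo) (hs : s ≤ y) :
    Xt P F (frz G s) y c g :=
  ⟨frz_ok' X.ok h h' hl, X.l, X.r, X.aq, X.fz.trans (subset_insert _ _),
    fun b k => (mem_insert.1 k).elim (fun e => .inr (e ▸ hs)) (X.fz' b), X.ls, X.ls', X.fl,
    fun p k => ⟨(X.lok p k).ok, (X.lok p k).mL, (X.lok p k).mR, (X.lok p k).ls⟩⟩

theorem to_of (h : ∀ a ∈ β, a.OK F.w ∧ a.OKn F.w n ∧ a.hi + 1 < y ∧ s < a.lo ∧ (l ∈ F.ls → Ps a l))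
    (far : ∀ a ∈ β, ∀ b ∈ β, a ≠ b → a.Far b) (fz : ∀ b ∈ F.fz, b.hi ≤ s ∨ y ≤ b.lo)
    (ls : ∀ l' ∈ F.ls, l' = l ∨ y < l'.lo) : To F n β :=
  ⟨fun a k => ⟨(h a k).1, (h a k).2.1⟩, far, fun a k b q => by
      have := h a k
      exact (fz b q).elim (fun r => .inr (.inl (by omega))) fun r => .inl (by omega),
    fun a k l' q => (ls l' q).elim (fun e => e ▸ (h a k).2.2.2.2 (e ▸ q)) fun r =>
      .inr (.inr (.inl (by have := h a k; omega)))⟩

theorem far_two (h : a.Far b) : ∀ p ∈ ({a, b} : Finset Bs), ∀ q ∈ ({a, b} : Finset Bs), p ≠ q → p.Far q := by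
  simp [h, far_symm h]

/-- the tail grows -/
theorem Sb.grow (S : Sb P F y v d c) {c' : Cn} {v' : ℝ × ℝ} (ok : G.OK P) (cut : G.Cut s) (hs : s ≤ y)
    (fz : ∀ a ∈ G.fz, s ≤ a.lo) (ls : ∀ l ∈ G.ls, s < l.lo) (sf : G.Sf (d + 1) c') (bd : c'.bd = 0)
    (h : ∀ q ∈ c'.support, ∃ g a, q ∈ (K g {a} c).support ∧ Xt P F G y c g ∧ s < a.lo ∧ a.hi < y ∧
      ∀ p ∈ c.support, To G (g p.1) {a} ∧ ∀ z σ, y ≤ z → wn s y σ = {a} → G.Win z 0 (g p.1) σ s y v' v) :
    Sb P G s v' (d + 1) c' :=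
  ⟨ok, cut, fz, ls, sf, bd, fun q hq => by
    obtain ⟨g, a, k, X, a1, a2, W⟩ := h q hq
    obtain ⟨p, hp, rfl⟩ := mem_K k
    have T := S.tl X hp
    refine ⟨forall_mem_union.2 ⟨(S.cell p hp).1, by simp⟩, X.lok p hp, image_K _ ▸ T.ext ok (S.cutX X).1
      (W p hp).1 (by simpa using ⟨a1, a2⟩) hs fun z hz => (W p hp).2 z _ hz (Finset.ext fun b => ?_)⟩
    have := (wf_of_ok ((W p hp).1.ok a (mem_singleton_self _)).1).1.1
    simp only [mem_wn, mem_union, mem_singleton]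
    exact ⟨fun k => k.1.resolve_right fun q => by have := T.rt b q; omega, fun k => by
      subst k; exact ⟨.inl rfl, a1.le, by omega⟩⟩⟩

/-! ### the walls of a turn -/

theorem Lt.wall (h : Lt κ F n τ x y) (ha : a = wa y ∨ a = wl y ∨ a = we x y ∨ a = wc x y ∨ a = wd x y) :
    a.OK F.w ∧ a.OKn F.w n ∧ a.hi + 1 < y ∧ x + 2 < a.lo ∧ (wl y ∈ F.ls → Ps a (wl y)) := by
  have := h.le; have := h.hi
  have lo : F.w.l < x + 2 := h.pt.lo
  have r : ∀ p q, x + 2 ≤ p → p < q → q ≤ y - 4 → F.w.Rg p q := fun p q a b c =>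
    h.pt.rg (by simp only [tL]; omega) b (by simp only [tL]; omega)
  have e : ∀ k ≤ 6, ∀ j, tL x y k ≤ j ∧ j < tL x y (k + 1) → F.w.s j = .rod (κ, vL k) := fun k a j b =>
    h.pt.s a b.1 b.2
  have e0 := e 0 (by omega) (x + 3) (by simp only [tL]; omega)
  have e1 := e 1 (by omega) (x + 4) (by simp only [tL]; omega)
  have e2 := e 2 (by omega) (x + 6) (by simp only [tL]; omega)
  have e4 := e 4 (by omega) (y - 8) (by simp only [tL]; omega)
  have e5 := e 5 (by omega) (y - 7) (by simp only [tL]; omega)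
  have e5' := e 5 (by omega) (y - 6) (by simp only [tL]; omega)
  have e6 := e 6 (by omega) (y - 5) (by simp only [tL]; omega)
  have e6' := e 6 (by omega) (y - 4) (by simp only [tL]; omega)
  rcases ha with rfl | rfl | rfl | rfl | rfl <;>
    simp only [wa, wl, we, wc, wd, Bs.OK, Bs.OKn, Bs.lo, Bs.hi, Ps, Crs, Bs.arc, e0, e1, e2, e4, e5, e5', e6, e6',
      Sl.l, Sl.r, vL, true_and, true_or, implies_true, and_true]
  · exact ⟨by omega, by omega, by omega, fun _ => .inr (by omega)⟩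
  · exact ⟨⟨r _ _ (by omega) (by omega) (by omega), by simp [dt]⟩, by omega, by omega⟩
  all_goals exact ⟨⟨r _ _ (by omega) (by omega) (by omega), by simp [Uni, dt]⟩, by omega, by omega,
    fun _ => .inr (by omega)⟩

/-- pairs of walls that are broken together -/
def Ap (x y τ : ℤ) (a b : Bs) : Prop := (τ = 0 ∧ a = wa y ∧ b = we x y) ∨ (τ = 0 ∧ a = we x y ∧ b = wd x y) ∨
  (τ = 1 ∧ a = wa y ∧ b = wc x y) ∨ (a = wa y ∧ b = wa y) ∨ (a = wd x y ∧ b = wd x y)

theorem Lt.hd (h : Lt κ F n τ x y) (A : Ap x y τ a b) (hβ : ∀ e ∈ β, e.pin → e = a ∨ e = b)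
    (hσ : ∀ a ∈ σ, y < a.lo) (hz : y ≤ z) : ∃ v, F.Win z 0 n (β ∪ σ) (F.w.l - 1) y v (5 / 2, 1) := by
  have := h.le
  refine h.head hz (forall_mem_union.2 ⟨fun e k q => ?_, fun e k _ => by have := hσ e k; omega⟩) fun B k q => ?_
  · rcases hβ e k q with rfl | rfl <;>
      rcases A with ⟨-, e1, e2⟩ | ⟨-, e1, e2⟩ | ⟨-, e1, e2⟩ | ⟨e1, e2⟩ | ⟨e1, e2⟩ <;>
      exact (h.wall (by simp [*])).2.2.2.1
  have := sub_pair (B := B) (a := a) (b := b) fun e i => by
    have j := mem_wn.1 (k i)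
    simpa using hβ e ((mem_union.1 j.1).resolve_right fun r => by have := hσ e r; omega) (q e i)
  unfold Al
  rcases A with ⟨rfl, rfl, rfl⟩ | ⟨rfl, rfl, rfl⟩ | ⟨rfl, rfl, rfl⟩ | ⟨rfl, rfl⟩ | ⟨rfl, rfl⟩ <;>
    (try rw [pair_eq_singleton] at this) <;> tauto

/-! ### the step -/

variable (D : Dt Γ P.Λ)

/-- the frame with the two junctions -/
def fMid (F : Fm Γ) (x y : ℤ) : Fm Γ := { F with w := D.mid F.w x y }

/-- the frame with one more turn -/
def fIns (F : Fm Γ) (x y : ℤ) : Fm Γ := ⟨D.ins F.w x y, F.fz, insert (wl y) F.ls⟩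

/-- the next frame -/
def fNx (F : Fm Γ) (x y : ℤ) : Fm Γ := frz (fIns D F x y) (y - 9)

/-- the next chain -/
def cNx (x y : ℤ) (c : Cn) : Cn := (K (insW 0 x y) {wa y} c + K (insW 1 x y) {wa y} c) +
  (K (insW 0 x y) {wl y} c + K (insW 1 x y) {wl y} c)

/-- **the state** -/
structure St (F : Fm Γ) (x y : ℤ) (d : ℕ) (c : Cn) : Prop extends Sb P F y (5 / 2, 1) d c where
  ex : ∃ n, n.OK F.w P.Λ ∧ D.Gap F.w n x y
  gap : ∀ p ∈ c.support, D.Gap F.w p.1 x y

variable {D}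

namespace St

variable (S : St D F x y d c) (h : x + 17 ≤ y)
include S h

theorem xMid : Xt P F (fMid D F x y) y c (midW x y) := by
  obtain ⟨n, o, G⟩ := S.ex
  have aq : ∀ n, Aq F.w (D.mid F.w x y) n (midW x y n) (y ≤ ·) := fun n =>
    (Dt.mid_ag n (by omega)).mono fun j q => .inr (by omega)
  exact ⟨S.okX (G.mid_ok (by omega) S.ok.w o).1 rfl rfl fun j q => (aq n j q).1, rfl, rfl, aq, Subset.rfl,
    fun _ => .inl, Subset.rfl, fun _ => .inl, fun l k => can_fl (by have := S.ls l k; omega),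
    fun p k => S.lokX (S.cell p k).2.1 ((S.gap p k).mid_ok (by omega) S.ok.w (S.cell p k).2.1.ok).2 rfl rfl (aq _)⟩

theorem lokI (t : τ = 0 ∨ τ = 1) (L : F.LOK P n) (G : D.Gap F.w n x y) : (fIns D F x y).LOK P (insW τ x y n) := by
  have L := S.lokX L ((G.tn (by omega) τ).ok (G.mid_ok (by omega) S.ok.w L.ok).1
    (G.mid_ok (by omega) S.ok.w L.ok).2).2 rfl rfl ((Dt.ins_ag n (by omega)).mono fun j q => .inr (by omega))
  have pt := (G.tn (by omega) τ).pt
  refine ⟨L.ok, L.mL, L.mR, fun l k => (mem_insert.1 k).elim (fun e => ?_) (L.ls l)⟩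
  rw [e]
  exact ⟨pt.nl (k := 4) (by omega) (by simp only [tL, wl, Bs.lo]; omega) (by simp only [tL, wl, Bs.lo]; omega),
    pt.nl (k := 6) (by omega) (by simp only [tL, wl, Bs.hi]; omega) (by simp only [tL, wl, Bs.hi]; omega),
    pt.nl (k := 5) (j := y - 8 + 1) (by omega) (by simp only [tL]; omega) (by simp only [tL]; omega) ▸ t⟩

theorem xIns (hk : P.kL = D.k) (t : τ = 0 ∨ τ = 1) : Xt P F (fIns D F x y) y c (insW τ x y) := by
  obtain ⟨n, o, G⟩ := S.ex
  have aq : ∀ n, Aq F.w (D.ins F.w x y) n (insW τ x y n) (y ≤ ·) := fun n =>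
    (Dt.ins_ag n (by omega)).mono fun j q => .inr (by omega)
  have O := S.okX ((G.tn (by omega) τ).ok (G.mid_ok (by omega) S.ok.w o).1 (G.mid_ok (by omega) S.ok.w o).2).1
    rfl rfl fun j q => (aq n j q).1
  have pt := (G.tn (by omega) τ).pt
  have := G.lo; have := G.hi
  refine ⟨⟨O.w, O.fz, fun l k => (mem_insert.1 k).elim (fun e => ⟨y - 8, by rw [e, wl]; congr 1; ring,
      by show F.w.l < _; omega, by show _ < F.w.r; omega, fun j a b => ?_⟩) (O.ls l),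
      fun l k a q => (mem_insert.1 k).elim (fun e => e ▸ .inr (.inl ?_)) fun k => O.lf l k a q,
      fun l k l' k' e => ?_⟩, rfl, rfl, aq, Subset.rfl, fun _ => .inl, subset_insert _ _,
    fun l k => (mem_insert.1 k).elim (fun e => .inr (by rw [e]; show y - 5 + 1 < y; omega)) .inl,
    fun l k n => ?_, fun p k => S.lokI h t (S.cell p k).2.1 (S.gap p k)⟩
  · rw [hk, lrd]
    split_ifs
    · exact pt.s (k := 4) (by omega) (by simp only [tL]; omega) (by simp only [tL]; omega)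
    · exact pt.s (k := 5) (by omega) (by simp only [tL]; omega) (by simp only [tL]; omega)
    · exact pt.s (k := 6) (by omega) (by simp only [tL]; omega) (by simp only [tL]; omega)
  · have := S.fz a q
    show y - 5 < _; omega
  · rcases mem_insert.1 k with rfl | k <;> rcases mem_insert.1 k' with rfl | k'
    · exact (e rfl).elim
    · exact .inl (by have := S.ls _ k'; show y - 5 + 1 < _; omega)
    · exact .inr (by have := S.ls _ k; show y - 5 + 1 < _; omega)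
    · exact O.ll l k l' k' e
  · have := S.ls l k
    rw [insW, midW, can_fl (by omega), put_fl (by simp only [tL]; omega)]; rfl

theorem lt (hk : P.kL = D.k) (t : τ = 0 ∨ τ = 1) {p : Wt × Finset Wl} (hp : p ∈ c.support) {fz : Finset Bs}
    (f : F.fz ⊆ fz) : Lt D.k { fIns D F x y with fz := fz } (insW τ x y p.1) τ x y :=
  ⟨((S.gap p hp).tn (by omega) τ).pt, (S.gap p hp).hi.le, (S.gap p hp).dt0 (by omega), t, h,
    fun l k => (mem_insert.1 k).imp_right (S.ls l), mem_insert_self _ _, f S.cut.1, (S.cutX (S.xIns h hk t)).2⟩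

theorem hdI (hk : P.kL = D.k) (t : τ = 0 ∨ τ = 1) (A : Ap x y τ a b) (hβ : ∀ e ∈ β, e.pin → e = a ∨ e = b)
    (far : ∀ a ∈ β, ∀ b ∈ β, a ≠ b → a.Far b)
    (hw : ∀ a ∈ β, a = wR x y ∨ a = wa y ∨ a = wl y ∨ a = we x y ∨ a = wc x y ∨ a = wd x y) :
    Hd (fIns D F x y) y (5 / 2, 1) c (insW τ x y) β := by
  refine ⟨fun a k => ?_, fun p hp => ⟨to_of (l := wl y) (s := x) (y := y) (fun a k => ?_) far
    (fun b k => .inr (S.fz b k)) (S.lt h hk t hp Subset.rfl).ls,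
    fun z => (S.lt h hk t hp Subset.rfl).hd A hβ (S.cell p hp).2.2.rt⟩⟩
  · rcases hw a k with rfl | rfl | rfl | rfl | rfl | rfl <;> simp only [wR, wa, wl, we, wc, wd, Bs.hi] <;> omega
  rcases hw a k with rfl | k
  swap
  · have := (S.lt h hk t hp Subset.rfl).wall k
    exact ⟨this.1, this.2.1, this.2.2.1, by omega, this.2.2.2.2⟩
  have T := (S.gap p hp).tn (by omega) τ
  have s0 := T.pt.rd 0 (by omega) (x + 2) le_rfl (by simp only [tL]; omega)
  have s1 := T.rdN (y - 3) (by simp [tL]) (by simp [tL])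
  refine ⟨⟨T.pt.rg (by simp only [tL]; omega) (by omega) (by simp [tL]), .inl ?_⟩,
    ⟨fun _ => s1.2.1.trans s0.2.2.symm, fun q => ?_⟩, by show y - 3 + 1 < y; omega, by show x < x + 2; omega,
    fun _ => .inr (.inr (.inr (.inr ⟨trivial, by show x + 2 < y - 8; omega, by show y - 5 < y - 3; omega⟩)))⟩
  · exact (congrArg (·.l.2) s1.1).trans (congrArg (·.r.2) s0.1).symm
  · have := (congrArg (·.l.2) s1.1).symm.trans (q.trans (congrArg (-·.r.2) s0.1))
    simp [Sl.l, Sl.r, vL] at this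

omit S h in
theorem mem_nx {q : Wt × Finset Wl} (k : q ∈ (cNx x y c).support) : ∃ τ a, (τ = 0 ∨ τ = 1) ∧
    (a = wa y ∨ a = wl y) ∧ q ∈ (K (insW τ x y) {a} c).support := by
  rcases mem_add k with k | k <;> rcases mem_add k with k | k
  exacts [⟨0, _, .inl rfl, .inl rfl, k⟩, ⟨1, _, .inr rfl, .inl rfl, k⟩, ⟨0, _, .inl rfl, .inr rfl, k⟩,
    ⟨1, _, .inr rfl, .inr rfl, k⟩]

omit h in
theorem ls_nx : ∀ l ∈ (fIns D F x y).ls, y - 9 < l.lo := fun l k => (mem_insert.1 k).elim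
  (fun e => e ▸ by show _ < y - 8; omega) fun k => by have := S.ls l k; omega

theorem xNx (hk : P.kL = D.k) (t : τ = 0 ∨ τ = 1) : Xt P F (fNx D F x y) y c (insW τ x y) := by
  obtain ⟨n, o, G⟩ := S.ex
  have := G.lo; have := G.hi
  exact (S.xIns h hk t).frz (by show F.w.l ≤ _; omega) (by show _ < F.w.r; omega) S.ls_nx (by omega)

theorem nx (hk : P.kL = D.k) : St D (fNx D F x y) (x + 8) (y - 9) (d + 1) (cNx x y c) := by
  obtain ⟨n, o, G⟩ := S.ex
  have X0 := S.xNx h hk (.inl rfl)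
  have X1 := S.xNx h hk (.inr rfl)
  have cut : (fNx D F x y).Cut (y - 9) := ⟨mem_insert_self _ _, by
    obtain ⟨μ, -, r⟩ := (G.ins (by omega) 0).rd
    exact (congrArg (·.r.2.2) (r _ (by omega) le_rfl).1).trans_ne two_ne_zero⟩
  have a1 : (wa y).hi < y := by show y - 6 < y; omega
  have l1 : (wl y).hi < y := by show y - 5 < y; omega
  refine ⟨S.grow X0.ok cut (by omega) (fun a k => (mem_insert.1 k).elim (fun e => e ▸ le_rfl) fun k => by
      have := S.fz a k; omega) S.ls_nx (sf_add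
      (S.sfK2 X0 X1 (insW_fl (by omega)) Subset.rfl (β := {wa y}) (by simpa using ⟨.inl trivial, a1⟩))
      (S.sfK2 X0 X1 (insW_fl (by omega)) Subset.rfl (β := {wl y})
        (by simpa using ⟨.inr (mem_insert_self _ _), l1⟩))) ?_ fun q k => ?_,
    ⟨_, ((G.tn (by omega) 0).ok (G.mid_ok (by omega) S.ok.w o).1 (G.mid_ok (by omega) S.ok.w o).2).2,
      G.ins (by omega) 0⟩, fun q k => ?_⟩
  · simp only [cNx, bd_add, bd_K1 S.bd (S.nm a1.le), bd_K1 S.bd (S.nm l1.le), add_self]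
  · obtain ⟨τ, a, t, ha, k⟩ := mem_nx k
    have b : y - 9 < a.lo ∧ a.hi < y := by rcases ha with rfl | rfl <;> simp only [wa, wl, Bs.lo, Bs.hi] <;> omega
    refine ⟨_, a, k, S.xNx h hk t, b.1, b.2, fun p hp => ?_⟩
    have L : Lt D.k (fNx D F x y) _ τ x y := S.lt h hk t hp (subset_insert _ _)
    have W := L.wall (a := a) (by tauto)
    exact ⟨to_of (l := wl y) (s := y - 9) (y := y) (by simpa using ⟨W.1, W.2.1, W.2.2.1, b.1, W.2.2.2.2⟩)
      (by simp) (fun b k => (mem_insert.1 k).imp (fun e => e ▸ le_rfl) (S.fz b)) L.ls,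
      fun z σ hz => L.win hz ha⟩
  · obtain ⟨τ, a, -, -, k⟩ := mem_nx k
    obtain ⟨p, hp, rfl⟩ := mem_K k
    exact (S.gap p hp).ins (by omega) τ

omit S h in
theorem ap : Ap x y 0 (wa y) (we x y) ∧ Ap x y 0 (we x y) (wd x y) ∧ Ap x y 1 (wa y) (wc x y) ∧
    (∀ τ, Ap x y τ (wa y) (wa y)) ∧ ∀ τ, Ap x y τ (wd x y) (wd x y) := by simp [Ap]

omit S h in
theorem far2 (k : a.hi < b.lo ∨ b.hi < a.lo ∨ (a.lo < b.lo ∧ b.hi < a.hi ∧ a.arc ∧ b.arc) ∨
    (b.lo < a.lo ∧ a.hi < b.hi ∧ a.arc ∧ b.arc)) :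
    ∀ p ∈ ({a, b} : Finset Bs), ∀ q ∈ ({a, b} : Finset Bs), p ≠ q → p.Far q := far_two (by unfold Bs.Far; tauto)

theorem hc (hk : P.kL = D.k) : Hd (fIns D F x y) y (5 / 2, 1) c (insW 1 x y) {wc x y} :=
  S.hdI h hk (.inr rfl) ap.2.2.1 (by simp) (by simp) (by simp)

theorem hd (hk : P.kL = D.k) : Hd (fIns D F x y) y (5 / 2, 1) c (insW 1 x y) {wd x y} :=
  S.hdI h hk (.inr rfl) (ap.2.2.2.2 1) (by simp) (by simp) (by simp)

theorem clI (hk : P.kL = D.k) : (fIns D F x y).Cl P (d + 1) (cNx x y c) := by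
  have N := S.nx h hk
  have pl : ¬(wl y).pin := id
  have H : ∀ {τ a}, τ = 0 ∨ τ = 1 → a = wa y ∨ a = wl y → ∀ q ∈ (K (insW τ x y) {a} c).support,
      (fIns D F x y).GC P q.1 q.2 := fun t e => S.gcK (S.xIns h hk t) (S.hdI h hk t (ap.2.2.2.1 _)
    (by rcases e with rfl | rfl <;> simp [pl]) (by simp) (by rcases e with rfl | rfl <;> simp))
  refine ⟨⟨N.sf.mem, N.sf.sym⟩, N.bd, fun q k => ?_⟩
  rcases mem_add k with k | k <;> rcases mem_add k with k | k
  exacts [H (.inl rfl) (.inl rfl) q k, H (.inr rfl) (.inl rfl) q k, H (.inl rfl) (.inr rfl) q k,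
    H (.inr rfl) (.inr rfl) q k]

variable {T : WTh Γ} (H : Ax0 P T)
include H

theorem z_stk (hk : P.kL = D.k) : T.Z (fIns D F x y) (d + 1) (cNx x y c) =
    T.Z (fIns D F x y) (d + 1) (K (insW 1 x y) {wc x y} c + K (insW 1 x y) {wd x y} c) := by
  have t0 : (0 : ℤ) = 0 ∨ (0 : ℤ) = 1 := .inl rfl
  have t1 : (1 : ℤ) = 0 ∨ (1 : ℤ) = 1 := .inr rfl
  have X0 := S.xIns h hk t0
  have X1 := S.xIns h hk t1
  have a1 : (wa y).hi < y := by show y - 6 < y; omega
  have l1 : (wl y).hi < y := by show y - 5 < y; omega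
  have e1 : (we x y).hi < y := by show y - 7 < y; omega
  have c1 : (wc x y).hi < y := by show y - 7 < y; omega
  have d1 : (wd x y).hi < y := by show y - 4 < y; omega
  obtain ⟨A0, A1, A2, -, A4⟩ := ap (x := x) (y := y)
  have pl : ¬(wl y).pin := id
  have C := S.clJ X1 (S.hc h hk) (S.hd h hk) trivial trivial
  have B := S.clI h hk
  have n1 : wa y ≠ we x y := nofun
  have n2 : we x y ≠ wd x y := by simp [we, wd]
  have n3 : wa y ≠ wc x y := nofun
  have n4 : wd x y ≠ wl y := nofun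
  have sf : ∀ {τ a b}, Xt P F (fIns D F x y) y c (insW τ x y) → a ≠ b → a.pin ∧ a.hi < y → b.pin ∧ b.hi < y →
      (fIns D F x y).Sf (d + 2) (K (insW τ x y) {a, b} c) := fun {_ a b} X e p q => by
    have := S.sfK X (β := {a, b}) (by simpa using ⟨p, q⟩)
    rwa [card_pair e] at this
  have sf' : (fIns D F x y).Sf (d + 2) (K (insW 0 x y) {wd x y, wl y} c + K (insW 1 x y) {wd x y, wl y} c) := by
    have := S.sfK2 X0 X1 (insW_fl (by omega)) Subset.rfl (β := {wd x y, wl y})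
      (by simpa using ⟨⟨.inl trivial, d1⟩, .inr (mem_insert_self _ _), l1⟩)
    rwa [card_pair n4] at this
  have E := H.stk _ (d + 1) _ X0.ok (sf_add (sf_add (sf_add (sf X0 n1 ⟨trivial, a1⟩ ⟨trivial, e1⟩)
    (sf X0 n2 ⟨trivial, e1⟩ ⟨trivial, d1⟩)) (sf X1 n3 ⟨trivial, a1⟩ ⟨trivial, c1⟩)) sf') fun q k => by
    rcases mem_add k with k | k <;> rcases mem_add k with k | k
    · rcases mem_add k with k | k
      · exact S.gcK X0 (S.hdI h hk t0 A0 (by simp) (far2 (by simp only [wa, we, Bs.lo, Bs.hi]; omega))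
          (by simp)) q k
      · exact S.gcK X0 (S.hdI h hk t0 A1 (by simp)
          (far2 (by simp only [wd, we, Bs.lo, Bs.hi, Bs.arc, and_true]; omega)) (by simp)) q k
    · exact S.gcK X1 (S.hdI h hk t1 A2 (by simp) (far2 (by simp only [wa, wc, Bs.lo, Bs.hi]; omega))
        (by simp)) q k
    · exact S.gcK X0 (S.hdI h hk t0 (A4 0) (by simp [pl])
        (far2 (by simp only [wd, wl, Bs.lo, Bs.hi, Bs.arc, and_true]; omega)) (by simp)) q k
    · exact S.gcK X1 (S.hdI h hk t1 (A4 1) (by simp [pl])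
        (far2 (by simp only [wd, wl, Bs.lo, Bs.hi, Bs.arc, and_true]; omega)) (by simp)) q k
  have b := fun g {a b : Bs} (e : a ≠ b) (p : a.hi < y) (q : b.hi < y) =>
    bd_K2 (g := g) S.bd e (S.nm p.le) (S.nm q.le)
  have z : ∀ a e d a' c l d' l' : Cn, a + e + (e + d) + (a' + c) + (d + l + (d' + l')) =
      (a + a' + (l + l')) + (c + d') := fun a e d a' c l d' l' => by
    rw [← add_zero (_ + (c + d')), ← add_self (e + d)]; abel
  rw [bd_add, bd_add, bd_add, bd_add, b _ n1 a1 e1, b _ n2 e1 d1, b _ n3 a1 c1, b _ n4 d1 l1, b _ n4 d1 l1, z] at E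
  exact (by decide : ∀ a b : ZMod 2, a + b = 0 → a = b) _ _ ((H.add _ _ _ _ B C).symm.trans (E (cl_add B C)))

theorem z_rf (hk : P.kL = D.k) :
    T.Z (fIns D F x y) (d + 1) (K (insW 1 x y) {wc x y} c + K (insW 1 x y) {wd x y} c) =
      T.Z (fMid D F x y) d (c.mp (midW x y) id ∅) := by
  obtain ⟨n, o, G⟩ := S.ex
  have XM := S.xMid h
  have pR : ¬(wR x y).pin := id
  have T7 : tL x y (6 + 1) = y - 3 := by simp [tL]
  have R : wR x y = .rA (tL x y 0) (tL x y (6 + 1)) := by rw [T7]; rfl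
  refine S.rf XM H (h := Wt.put (tL x y) (mL 1) 6) (S.xIns h hk (.inr rfl)) rfl (G.tn (by omega) 1).sur rfl rfl
    (fun l k => (mem_insert.1 k).elim (fun e => .inr (by
      rw [e, T7]; simp only [tL, wl, Bs.lo, Bs.hi]; omega)) .inl) (by omega)
    (fun j a b => by
      have := (G.tn (by omega) 1).rd
      exact (this j a.le b).1.trans (congrArg (Sl.rod ·.r) (this _ le_rfl (by omega)).1).symm)
    ⟨put_chg.1, fun l k => put_fl (by have := S.ls l k; omega)⟩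
    (S.hd_nil XM (fun l k => (S.ls l k).le) (by simpa using ⟨id, by show tL x y (6 + 1) < y; omega⟩) fun p hp => ?_)
    (fun p hp => rs_two ((S.gap p hp).tn (by omega) 1) XM.ok.w (by omega) _ _ S.ls fun l k => by
      have := ls_bd S.ok k; omega)
    (R ▸ S.hdI h hk (.inr rfl) ap.2.2.1 (by simp [pR])
      (far2 (by simp only [wR, wc, Bs.lo, Bs.hi, Bs.arc, and_true]; omega)) (by simp))
    (R ▸ S.hdI h hk (.inr rfl) (ap.2.2.2.2 1) (by simp [pR])
      (far2 (by simp only [wR, wd, Bs.lo, Bs.hi, Bs.arc, and_true]; omega)) (by simp))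
    (S.hc h hk) (S.hd h hk) trivial trivial
  have U := (S.gap p hp).tn (by omega) 1
  have r0 := U.rd _ le_rfl U.lt.le
  have r1 := U.rd _ U.lt.le le_rfl
  refine to_of (l := wl y) (s := x) (y := y) (fun a k => ?_) (by simp) (fun b k => .inr (S.fz b k))
    fun l k => .inr (S.ls l k)
  rw [mem_singleton.1 k]
  refine ⟨⟨U.sur.rg', .inl ((congrArg (·.l.2) r1.1).trans (congrArg (·.r.2) r0.1).symm)⟩,
    ⟨fun _ => r1.2.1.trans r0.2.2.symm, fun q => ?_⟩, by show tL x y (6 + 1) + 1 < y; omega,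
    by show x < x + 2; omega, fun q => by have : y < y - 8 := S.ls _ q; omega⟩
  have := (congrArg (·.l.2) r1.1).symm.trans (q.trans (congrArg (-·.r.2) r0.1))
  simp [Sl.l, Sl.r, vL] at this

theorem z_can (iv : P.iv D.F D.G) : T.Z (fMid D F x y) d (c.mp (midW x y) id ∅) = T.Z F d c := by
  obtain ⟨n, o, G⟩ := S.ex
  have XM := S.xMid h
  refine (H.can F _ _ _ _ _ _ d c (G.can (by omega)) iv (by rw [D.sF]; exact two_ne_zero)
    ⟨can_chg.1, XM.fl⟩ (fun a k => ?_) (fun a k => .inr ?_) S.cl (S.cl0 XM fun l k => (S.ls l k).le)).symm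
  · obtain ⟨p, hp, k⟩ := mem_walls.1 k
    have := S.rt hp k
    exact ⟨_, _, ⟨le_rfl, le_rfl, by simp [(S.cell p hp).1 a k]⟩, .inr (by omega)⟩
  · exact (mem_union.1 k).elim (fun k => by have := S.fz a k; omega) fun k => by have := S.ls a k; omega

/-- **the step** -/
theorem z_nx (hk : P.kL = D.k) (iv : P.iv D.F D.G) : T.Z (fNx D F x y) (d + 1) (cNx x y c) = T.Z F d c := by
  rw [fNx, H.frz1 (S.clI h hk) (S.nx h hk).cl, S.z_stk h H hk, S.z_rf h H hk, S.z_can h H iv]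

end St

end Crest.Agent.X212.Two48
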