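import Crest.Agent.X212.Nm96.Win2
import Crest.Agent.X212.Wd38.Rs

/-!
# Row 212, layer G (helper48): windows between cuts, head windows, tails, sums over patterns
-/

set_option autoImplicit false
noncomputable section

namespace Crest.Agent.X212.Two48

open Crest.Agent.X212.Rod53 Crest.Agent.X212.Wd38 Crest.Agent.X212.Nm96 Finset

variable {Γ : Nm} {P : Pm Γ} {F F' : Fm Γ} {w : Shp Γ} {s t u y z c : ℤ} {n n' : Wt}
  {τ σ B U : Finset Bs} {η η' : Bs → Bool} {a b : Bs} {φ : Z2 → Z2 → ℤ → ℤ → ℝ} {v v' : ℝ × ℝ}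
  {ch : Bs → Bool → ℤ} {μ e : ℝ}

theorem inV_congr (h : ∀ a ∈ B, η a = η' a) : InV B η c ↔ InV B η' c :=
  forall₂_congr fun a ha => by rw [h a ha]

theorem adj_congr (h : ∀ a ∈ B, η a = η' a) : Adj B η a ↔ Adj B η' a :=
  inV_congr fun b hb => h b (mem_of_mem_erase hb)

theorem ev_congr (h : ∀ a ∈ B, η a = η' a) :
    F.Ev n σ B η ch φ μ e s t = F.Ev n σ B η' ch φ μ e s t := by
  simp only [Fm.Ev, ssum, asum, inV_congr h, adj_congr h]
  congr 1
  · congr 3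
    exact sum_congr rfl fun a ha => by rw [h a (mem_filter.1 ha).1]
  · exact sum_congr rfl fun a ha => by rw [h a (mem_filter.1 ha).1]

theorem ev_bdd : ∃ K, ∀ η, K ≤ F.Ev n σ B η ch φ μ e s t := by
  obtain ⟨K, hK⟩ := ((B.powerset.finite_toSet).image
    fun S : Finset Bs => F.Ev n σ B (fun a => decide (a ∈ S)) ch φ μ e s t).bddBelow
  refine ⟨K, fun η => hK ⟨{a ∈ B | η a = true}, mem_coe.2 (mem_powerset.2 (filter_subset _ _)),
    ev_congr fun a ha => ?_⟩⟩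
  simp [ha]

variable (F) in
/-- the inequalities for one piece of a window that ends on a cut -/
def Pl (n : Wt) (σ B : Finset Bs) (ch : Bs → Bool → ℤ) (s t : ℤ) (v v' : ℝ × ℝ) (η : Bs → Bool) : Prop :=
  dp B η s t v.1 v'.1 ≤ F.Ev n σ B η ch al (1 / 4) (13 / 4) s t ∧
    ∀ n', Tp F.w n n' s t → ssum F.w B η s t lq n' ≤ 0 →
      dp B η s t v.2 v'.2 ≤ -3 / 2 * ssum F.w B η s t lq n' + F.Ev n σ B η ch om 1 1 s t

variable (F) in
/-- the charges -/
def Cg (B : Finset Bs) (ch : Bs → Bool → ℤ) (s t : ℤ) : Prop :=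
  2 * (#{l ∈ wn s t F.ls | ∃ a ∈ B, ¬a.Far l} : ℤ) ≤ ∑ a ∈ B, (ch a true + ch a false) ∧
    ∀ a ∈ B, Sz a (ch a)

theorem win_of (hs : F.Cut s) (ht : F.Cut t) (hz : t ≤ z)
    (h : ∀ B ⊆ wn s t σ, (∀ a ∈ B, a.pin) → ∃ ch, Cg F B ch s t ∧ ∀ η, Pl F n σ B ch s t v v' η) :
    F.Win z 0 n σ s t v v' := fun B hB hp => by
  obtain ⟨ch, k, k'⟩ := h B hB hp
  refine ⟨ch, k.1, k.2, fun η => ⟨by simpa using (k' η).1, .inr fun n' tp lc => ?_⟩⟩
  rw [show ee z B η t = t from if_neg (by omega), sub_zero]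
  exact (k' η).2 n' tp (lc s t le_rfl le_rfl (.inr hs) (.inr ht))

theorem asum_nonneg {f : Bs → ℝ} (h : ∀ a, 0 ≤ f a) : 0 ≤ asum U B η s t f := sum_nonneg fun a _ => h a

theorem asum_zero {f : Bs → ℝ} (h : ∀ a ∈ U, a.lo < s ∨ t ≤ a.lo) : asum U B η s t f = 0 :=
  sum_eq_zero fun a ha => by have := mem_filter.1 ha; have := h a this.1; omega

theorem ssum_zero (h : ∀ a ∈ B, a.lo < s ∨ t ≤ a.lo)
    (h' : ∀ c, s < c → c ≤ t → InV B η c → vx w φ n c = 0) : ssum w B η s t φ n = 0 := by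
  rw [ssum_eq, asum_zero h, add_zero]
  exact sum_eq_zero fun c hc => by
    have := (mem_filter.1 hc).2
    exact h' c (by omega) (by omega) this.2.2

/-- **head windows**: the first piece is free -/
theorem head_of (ht : F.Cut t) (hz : t ≤ z) (hs : F.w.l ≤ s) (hst : s ≤ t)
    (h0 : ∀ a ∈ σ, a.pin → s < a.lo) (h1 : ∀ l ∈ F.ls, s ≤ l.lo)
    (h : ∀ B ⊆ wn s t σ, (∀ a ∈ B, a.pin) → ∃ ch, Cg F B ch s t ∧
      ∀ η, ¬InV B η (s + 1) → Pl F n σ B ch s t 0 v' η) :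
    ∃ v, F.Win z 0 n σ (F.w.l - 1) t v v' := by
  classical
  choose! ch k k' using h
  choose K1 hK1 using fun B => ev_bdd (F := F) (n := n) (σ := σ) (B := B) (ch := ch B) (φ := al)
    (μ := 1 / 4) (e := 13 / 4) (s := F.w.l - 1) (t := t)
  choose K2 hK2 using fun B => ev_bdd (F := F) (n := n) (σ := σ) (B := B) (ch := ch B) (φ := om)
    (μ := 1) (e := 1) (s := F.w.l - 1) (t := t)
  obtain ⟨K, hK⟩ := ((σ.powerset.finite_toSet).image fun B => min (K1 B) (K2 B)).bddBelow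
  refine ⟨(|v'.1| - K, |v'.2| - K), fun B hB hp => ?_⟩
  have b0 : ∀ a ∈ B, s < a.lo := fun a ha => h0 a (mem_wn.1 (hB ha)).1 (hp a ha)
  have b1 : B ⊆ wn s t σ := fun a ha =>
    mem_wn.2 ⟨(mem_wn.1 (hB ha)).1, (b0 a ha).le, (mem_wn.1 (hB ha)).2.2⟩
  have b2 : K ≤ min (K1 B) (K2 B) := hK ⟨B, mem_coe.2 (mem_powerset.2 (hB.trans (filter_subset _ _))), rfl⟩
  have iv : ∀ η c, c ≤ s + 1 → (InV B η c ↔ InV B η (s + 1)) := fun η c hc =>
    forall₂_congr fun a ha => by rw [side_of_le (c' := s + 1) (hc.trans (b0 a ha)) (b0 a ha)]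
  have e0 : wn (F.w.l - 1) t F.ls = wn s t F.ls := Finset.ext fun l => by
    simp only [mem_wn]; exact and_congr_right fun q => by have := h1 l q; omega
  refine ⟨ch B, e0 ▸ (k B b1 hp).1, (k B b1 hp).2, fun η => ?_⟩
  have E : ee z B η t = t := if_neg (by omega)
  simp only [Fm.Pc, E, sub_zero, dp, iv η (F.w.l - 1 + 1) (by omega)]
  by_cases i : InV B η (s + 1)
  · have a1 := (b2.trans (min_le_left _ _)).trans (hK1 B η)
    have a2 := (b2.trans (min_le_right _ _)).trans (hK2 B η)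
    have := le_abs_self v'.1; have := le_abs_self v'.2
    have := abs_nonneg v'.1; have := abs_nonneg v'.2
    refine ⟨by split_ifs <;> linarith, .inr fun n' _ lc => ?_⟩
    have := lc _ t le_rfl le_rfl (.inl rfl) (.inr ht)
    split_ifs <;> linarith
  have s0 : ∀ φ m, ssum F.w B η (F.w.l - 1) s φ m = 0 := fun φ m =>
    ssum_zero (fun a ha => .inr (b0 a ha).le) fun c _ hc j => (i ((iv η c (by omega)).1 j)).elim
  have ev : ∀ φ μ e, 0 ≤ μ → F.Ev n σ B η (ch B) φ μ e s t ≤ F.Ev n σ B η (ch B) φ μ e (F.w.l - 1) t :=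
    fun φ μ e hμ => by
      rw [Fm.Ev_cut (show F.w.l - 1 ≤ s by omega) hst, Fm.Ev.eq_1 (t := s), s0,
        asum_zero fun l q => .inr (h1 l q), asum_zero fun a q => .inr (b0 a q).le]
      have := asum_nonneg (U := σ \ B) (B := B) (η := η) (s := F.w.l - 1) (t := s) fun _ => hμ
      linarith
  obtain ⟨p1, p2⟩ := k' B b1 hp η i
  simp only [dp, if_neg i] at p1 p2 ⊢
  refine ⟨p1.trans (ev _ _ _ (by norm_num)), .inr fun n' tp lc => ?_⟩
  have := lc _ t le_rfl le_rfl (.inl rfl) (.inr ht)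
  rw [ssum_cut (show F.w.l - 1 ≤ s by omega) hst, s0, zero_add] at this ⊢
  exact (p2 n' (tp.mono (by omega) le_rfl) this).trans (add_le_add le_rfl (ev _ _ _ zero_le_one))

/-! ### tails -/

/-- the position of a wall with respect to a lens arc -/
def Ps (a l : Bs) : Prop :=
  a = l ∨ Crs a l ∨ a.hi < l.lo - 1 ∨ l.hi + 1 < a.lo ∨ (a.arc ∧ a.lo < l.lo ∧ l.hi < a.hi)

variable (F) in
/-- the part of `Tor` without numbers -/
structure To (n : Wt) (σ : Finset Bs) : Prop where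
  ok : ∀ a ∈ σ, a.OK F.w ∧ a.OKn F.w n
  far : ∀ a ∈ σ, ∀ b ∈ σ, a ≠ b → a.Far b
  fz : ∀ a ∈ σ, ∀ b ∈ F.fz, a.Far b
  ls : ∀ a ∈ σ, ∀ l ∈ F.ls, Ps a l

variable (P F) in
/-- a certified cell right of the slot `y` -/
structure Tl (y : ℤ) (v : ℝ × ℝ) (n : Wt) (σ : Finset Bs) : Prop extends To F n σ where
  rt : ∀ a ∈ σ, y < a.lo
  win : ∃ z vR, F.Cut z ∧ y ≤ z ∧ z ≤ F.w.r ∧ 15 / 4 - P.M ≤ vR.1 ∧ 9 - P.M ≤ vR.2 ∧
    F.Win z 0 n σ y (F.w.r + 1) v vR

theorem far_symm (h : a.Far b) : b.Far a := by unfold Bs.Far at *; tauto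

theorem To.union (h : To F n τ) (h' : To F n σ) (k : ∀ a ∈ τ, ∀ b ∈ σ, a.hi < b.lo) : To F n (τ ∪ σ) :=
  ⟨forall_mem_union.2 ⟨h.ok, h'.ok⟩, forall_mem_union.2
    ⟨fun a p => forall_mem_union.2 ⟨h.far a p, fun b q _ => .inl (k a p b q)⟩,
      fun a p => forall_mem_union.2 ⟨fun b q _ => .inr (.inl (k b q a p)), h'.far a p⟩⟩,
    forall_mem_union.2 ⟨h.fz, h'.fz⟩, forall_mem_union.2 ⟨h.ls, h'.ls⟩⟩

theorem ls_bd (ok : F.OK P) {l : Bs} (h : l ∈ F.ls) : F.w.l < l.lo ∧ l.hi = l.lo + 3 ∧ l.hi < F.w.r := by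
  obtain ⟨x, rfl, a, b, -⟩ := ok.ls l h
  exact ⟨by show _ < x; omega, rfl, by show x + 3 < _; omega⟩

theorem sp_ls (ok : F.OK P) (hy : .yS y ∈ F.fz) {l : Bs} (h : l ∈ F.ls) : Sp y l := by
  have := ls_bd ok h
  have := ok.lf l h _ hy
  simp only [Bs.Far, Bs.lo, Bs.hi, Bs.arc, false_and, and_false, or_false] at this
  unfold Sp
  simp only [Bs.lo, Bs.hi] at *
  omega

/-- the tail in another frame -/
theorem Tl.tr (h : Tl P F y v n σ) (m : Fm.Sm F F' n n' y (F.w.r + 1))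
    (fz : ∀ b ∈ F'.fz, b ∈ F.fz ∨ b.hi ≤ y) (ls : ∀ l ∈ F'.ls, l ∈ F.ls ∨ l.hi < y) : Tl P F' y v n' σ := by
  have bd := fun a k => wf_of_ok (h.ok a k).1
  refine ⟨⟨fun a k => ?_, h.far, fun a k b q => (fz b q).elim (h.fz a k b) fun r => ?_,
    fun a k l q => (ls l q).elim (h.ls a k l) fun r => ?_⟩, h.rt, ?_⟩
  · have h1 := h.rt a k; have h2 := bd a k; have h3 := h2.1.1
    have e1 := m.s' a.lo (by omega) (by omega)
    have e2 := m.s' a.hi (by omega) (by omega)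
    have e3 := m.nr a.lo (by omega) (by omega)
    have e4 := m.nl a.hi (by omega) (by omega)
    have r : F.w.Rg a.lo a.hi → F'.w.Rg a.lo a.hi := fun q =>
      ⟨m.l ▸ q.lo, q.lt, m.r ▸ q.hi, fun j a b => m.s' j (by omega) (by omega) ▸ q.fr j a b⟩
    obtain ⟨o, o'⟩ := h.ok a k
    cases a <;> simp only [Bs.OK, Bs.OKn, Bs.lo, Bs.hi] at * <;> simp only [e1, e2, e3, e4, m.l, m.r]
    exacts [⟨⟨r o.1, o.2⟩, trivial⟩, ⟨⟨r o.1, o.2⟩, o'⟩, ⟨⟨r o.1, o.2⟩, trivial⟩, ⟨o, trivial⟩, ⟨o, trivial⟩]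
  · exact .inr (.inl (r.trans_lt (h.rt a k)))
  · exact .inr (.inr (.inr (.inl (by have := h.rt a k; omega))))
  obtain ⟨z, vR, z1, z2, z3, z4, z5, W⟩ := h.win
  refine ⟨z, vR, ⟨m.fz z z2 (by omega) z1.1, m.s' z z2 (by omega) ▸ z1.2⟩, z2, m.r ▸ z3, z4, z5, ?_⟩
  rw [m.r]
  exact W.congr m rfl fun a k => by
    have := bd a (mem_wn.1 k).1; have := this.1.1; have := (mem_wn.1 k).2; omega

theorem Tl.join (h : Tl P F y v n σ) (ok : F.OK P) (hy : .yS y ∈ F.fz) (T : To F n τ)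
    (hτ : ∀ a ∈ τ, a.hi < y) (hs : s ≤ y) :
    ∃ z vR, F.Cut z ∧ y ≤ z ∧ z ≤ F.w.r ∧ 15 / 4 - P.M ≤ vR.1 ∧ 9 - P.M ≤ vR.2 ∧
      ∀ x, F.Win z 0 n (τ ∪ σ) s y x v → F.Win z 0 n (τ ∪ σ) s (F.w.r + 1) x vR := by
  obtain ⟨z, vR, z1, z2, z3, z4, z5, W⟩ := h.win
  have b1 := fun a k => (wf_of_ok (T.ok a k).1).1.1
  have b2 := fun a k => wf_of_ok (h.ok a k).1
  refine ⟨z, vR, z1, z2, z3, z4, z5, fun x W' => W'.trans (W.congr ⟨rfl, rfl, fun _ _ _ => rfl,
    fun _ _ _ => rfl, fun _ _ _ => rfl, rfl, fun _ _ _ => id⟩ (Finset.ext fun a => ?_) fun a k => ?_)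
    hs (by omega) z2 (by omega) (fun a k => ?_) fun l k => sp_ls ok hy (mem_wn.1 k).1⟩
  · simp only [mem_wn, mem_union]
    exact and_congr_left fun q => or_iff_right fun r => by have := b1 a r; have := hτ a r; omega
  · have := b2 a (mem_wn.1 k).1; have := this.1.1; have := (mem_wn.1 k).2; omega
  · exact (mem_union.1 (mem_wn.1 k).1).elim (fun r => ⟨b1 a r, .inl (hτ a r)⟩)
      fun r => ⟨(b2 a r).1.1, .inr (h.rt a r)⟩

/-- one more window -/
theorem Tl.ext (h : Tl P F y v n σ) (ok : F.OK P) (hy : .yS y ∈ F.fz) (T : To F n τ)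
    (hτ : ∀ a ∈ τ, s < a.lo ∧ a.hi < y) (hs : s ≤ y)
    (W : ∀ z, y ≤ z → F.Win z 0 n (τ ∪ σ) s y v' v) : Tl P F s v' n (τ ∪ σ) := by
  obtain ⟨z, vR, z1, z2, z3, z4, z5, W'⟩ := h.join ok hy T (fun a k => (hτ a k).2) hs
  exact ⟨T.union h.toTo fun a p b q => (hτ a p).2.trans (h.rt b q), forall_mem_union.2
    ⟨fun a k => (hτ a k).1, fun a k => hs.trans_lt (h.rt a k)⟩, z, vR, z1, hs.trans z2, z3, z4, z5,
    W' _ (W z z2)⟩

/-- **head and tail** -/
theorem Tl.tor (h : Tl P F y v n σ) (ok : F.OK P) (hy : .yS y ∈ F.fz) (T : To F n τ)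
    (hτ : ∀ a ∈ τ, a.hi < y) (W : ∀ z, y ≤ z → ∃ x, F.Win z 0 n (τ ∪ σ) (F.w.l - 1) y x v) :
    F.Tor P n (τ ∪ σ) := by
  have T' := T.union h.toTo fun a p b q => (hτ a p).trans (h.rt b q)
  have := (ok.fz _ hy).1.1
  obtain ⟨z, vR, z1, z2, z3, z4, z5, W'⟩ := h.join ok hy T hτ (s := F.w.l - 1) (by omega)
  obtain ⟨x, W⟩ := W z z2
  exact ⟨T'.ok, T'.far, T'.fz, T'.ls, (W' x W).numC le_rfl zero_le_one (fun a k => (T'.ok a k).1) T'.far
    (fun l k => by have := ls_bd ok k; omega) (.inr z1) z3 z4 z5⟩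

/-! ### sums over patterns -/

/-- vanishing away from the vertices -/
def Zr (φ : Z2 → Z2 → ℤ → ℤ → ℝ) : Prop := ∀ u u' x y, dt u u' = 0 → φ u u' x y = 0

theorem zr_lq : Zr lq := fun _ _ _ _ e => by simp [lq, lb, e]

theorem zr_al : Zr al := fun _ _ _ _ e => by simp [al, Nm96.lp, lq, lb, lg, nn, e]

theorem zr_om : Zr om := fun _ _ _ _ e => by simp [om, Nm96.lp, lq, lb, lg, nn, e]

/-- the orders on a window of a pattern -/
def Ow (n : Wt) (t : ℕ → ℤ) (m : ℕ → ℤ) (N : ℕ) (s u : ℤ) : Prop := ∀ k ≤ N, ∀ j, t k ≤ j → j < t (k + 1) →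
  (s < j → j ≤ u → n.nl j = m k) ∧ (s ≤ j → j < u → n.nr j = m k)

section pt
variable {κ : Γ.ι} {T : ℕ → ℤ} {V : ℕ → Z2} {m p : ℕ → ℤ} {N k₀ : ℕ} (h : Pt w n κ T V m N)
include h

theorem pt_ow : Ow n T m N s u := fun _ k _ a b => ⟨fun _ _ => h.nl k a b, fun _ _ => h.nr k a b⟩

theorem tp_ow (tp : Tp w n n' s u) (hu : T N < u) (hs : s < u) : ∃ p, Ow n' T p N s u ∧
    ∀ k ≤ N, s < T (k + 1) → Even (p k - m k - (V k).1 * (V k).2) := by
  have l0 := fun k => h.mono.monotone (Nat.zero_le k)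
  have r0 : ∀ k ≤ N, T (k + 1) ≤ T (N + 1) ∧ T k ≤ T N := fun k hk =>
    ⟨h.mono.monotone (by omega), h.mono.monotone hk⟩
  have := h.lo
  have := h.hi
  refine ⟨fun k => n'.nr (max s (T k)), fun k hk j a b => ?_, fun k hk a => ?_⟩
  · have := l0 k; have := r0 k hk
    have q : ∀ j, max s (T k) ≤ j → j < T (k + 1) → j < u → n'.nr j = n'.nr (max s (T k)) := fun j a => by
      induction j, a using Int.leInduction with
      | base => exact fun _ _ => rfl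
      | succ j a ih =>
        intro b c
        rw [← ih (by omega) (by omega), ← tp.rod (j + 1) _ (by omega) c (by omega) (by omega)
          (h.s hk (by omega) b), ← tp.eq (j + 1) (by omega) c.le (by omega) (by omega)
          (by rw [h.lf hk (by omega) b.le, h.rt hk (by omega) b]), add_sub_cancel_right]
    refine ⟨fun c d => ?_, fun c d => q j (by omega) b d⟩
    rcases a.eq_or_lt with rfl | a
    · rw [tp.rod _ _ c (by omega) (by omega) (by omega) (h.s hk le_rfl b)]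
      exact q _ (by omega) b (by omega)
    · rw [← tp.eq j c d (by omega) (by omega) (by rw [h.lf hk a b.le, h.rt hk a.le b])]
      exact q _ (by omega) (by omega) (by omega)
  · have := l0 k; have := r0 k hk; have := h.lt k
    have b := tp.r (max s (T k)) (by omega) (by omega) (by omega) (by omega)
    rwa [h.nr hk (by omega) (by omega), h.s hk (by omega) (by omega)] at b

theorem vv_pt (o : Ow n' T p N s u) {i j : ℕ} (hi : i ≤ N) (hj : j ≤ N) (a1 : T i ≤ a.lo) (a2 : a.lo < T (i + 1))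
    (a3 : T j ≤ a.hi) (a4 : a.hi < T (j + 1)) (a5 : s ≤ a.lo) (a6 : a.lo < a.hi) (a7 : a.hi ≤ u) :
    vv w φ n' a = φ (V i) (V j) (p i) (p j) := by
  rw [vv, h.s hi a1 a2, h.s hj a3 a4, (o i hi _ a1 a2).2 a5 (by omega), (o j hj _ a3 a4).1 (by omega) a7]
  rfl

theorem ssum_pt (o : Ow n' T p N s u) (hφ : Zr φ) (s1 : T k₀ ≤ s) (s2 : s < T (k₀ + 1)) (hk : k₀ ≤ N)
    (u1 : T N ≤ u) (su : s ≤ u) (u2 : u ≤ w.r) (hz : ∀ c, T (N + 1) ≤ c → c ≤ u → dt (w.lf c) (w.rt c) = 0)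
    (hB : ∀ a ∈ B, s ≤ a.lo ∧ a.lo < u) : ssum w B η s u φ n' =
    ∑ k ∈ Ioc k₀ N, (if InV B η (T k) then φ (V (k - 1)) (V k) (p (k - 1)) (p k) else 0) +
      ∑ a ∈ B, if a.arc ∧ Adj B η a then (if η a then 1 else -1) * vv w φ n' a else 0 := by
  have := h.lo
  have := h.mono.monotone k₀.zero_le
  have := h.lt N
  have := h.mono.monotone (Nat.succ_le_succ hk)
  simp only [Nat.succ_eq_add_one] at this
  rw [ssum, ← sum_filter (s := B)]
  congr 1
  · have e : ∀ c, T N < c → c ≤ u → vx w φ n' c = 0 := fun c a b => hφ _ _ _ _ <| by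
      rcases lt_or_ge c (T (N + 1)) with q | q
      · rw [h.lf le_rfl a q.le, h.rt le_rfl a.le q, Rod53.dt_self]
      · exact hz c q b
    rw [show {c ∈ Ioc w.l w.r | s < c ∧ c ≤ u ∧ InV B η c} = {c ∈ Ioc s u | InV B η c} from
      Finset.ext fun c => by simp only [mem_filter, mem_Ioc]; constructor <;> rintro ⟨a, b⟩ <;>
        refine ⟨by omega, by tauto⟩, sum_filter]
    trans ∑ c ∈ Ioc s (max s (T N)), if InV B η c then vx w φ n' c else 0
    · refine (sum_subset (Ioc_subset_Ioc_right (by omega)) fun c a b => ?_).symm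
      simp only [mem_Ioc] at a b
      exact ite_eq_right_iff.2 fun _ => e c (by omega) a.2
    rw [sum_pt (G := fun c => if InV B η c then vx w φ n' c else 0) h.mono s1 s2 (k1 := N)
      (b := max s (T N)) (by omega) (by omega) fun k hk j a b => ite_eq_right_iff.2 fun _ =>
      hφ _ _ _ _ (by rw [h.lf hk a b.le, h.rt hk a.le b, Rod53.dt_self])]
    refine sum_congr rfl fun k hk' => if_congr Iff.rfl ?_ rfl
    rw [mem_Ioc] at hk'
    obtain ⟨k, rfl⟩ : ∃ k', k = k' + 1 := ⟨k - 1, by omega⟩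
    have a := h.lt k
    have b := h.lt (k + 1)
    have c : T (k₀ + 1) ≤ T (k + 1) := h.mono.monotone (by omega)
    have d := h.mono.monotone hk'.2
    rw [Nat.add_sub_cancel, Nm96.vx, h.lf (by omega) a le_rfl, h.rt hk'.2 le_rfl b,
      (o _ hk'.2 _ le_rfl b).1 (by omega) (by omega),
      (o k (by omega) _ (by omega) (by omega)).2 (by omega) (by omega)]
  · exact sum_congr (filter_congr fun a k => by have := hB a k; tauto) fun _ _ => rfl

end pt

theorem asum_all {f : Bs → ℝ} (h : ∀ a ∈ U, s ≤ a.lo ∧ a.lo < t) :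
    asum U B η s t f = ∑ a ∈ U, if Adj B η a then f a else 0 := by
  rw [← sum_filter]
  exact sum_congr (filter_congr fun a k => by have := h a k; tauto) fun _ _ => rfl

/-- a lower bound for `Ev`: `L` are the lens arcs, `U` some parameters -/
theorem ev_ge {L : Finset Bs} (hμ : 0 ≤ μ) (hB : ∀ a ∈ B, s ≤ a.lo ∧ a.lo < t) (hL : wn s t F.ls = L)
    (hU : U ⊆ wn s t (σ \ B)) : ssum F.w B η s t φ n + (∑ a ∈ U, if Adj B η a then μ else 0) +
      (∑ l ∈ L, if Adj B η l then (if ∀ a ∈ B, a.Far l then -2 * μ else 0) else 0) +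
      (∑ a ∈ B, if Adj B η a then (if a.side (a.lo + 1) = η a then e else 0) - ch a (η a) else 0) ≤
    F.Ev n σ B η ch φ μ e s t := by
  rw [Fm.Ev, asum_all hB, Fm.asum_wn (U := F.ls), asum_all fun a k => (mem_wn.1 k).2, hL,
    Fm.asum_wn (U := σ \ B), asum_all fun a k => (mem_wn.1 k).2]
  have := sum_le_sum_of_subset_of_nonneg (f := fun a => if Adj B η a then μ else 0) hU
    fun _ _ _ => by split_ifs <;> linarith
  linarith

end Crest.Agent.X212.Two48
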